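import Mathlib
import Crest.Prelude.Def_LinCircuit

set_option autoImplicit false

namespace Crest.Agent.R324

open Finset

/-- `Reach S t T`: starting from the available functionals `S`, after `t` gates the functionals
`T` are available. -/
inductive Reach {X : Type} (S : Set (X → ℂ)) : ℕ → Set (X → ℂ) → Prop
  | base : Reach S 0 S
  | add {t : ℕ} {T : Set (X → ℂ)} (a b : X → ℂ) :
      Reach S t T → a ∈ T → b ∈ T → Reach S (t + 1) (insert (a + b) T)
  | smul {t : ℕ} {T : Set (X → ℂ)} (c : ℂ) (a : X → ℂ) :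
      Reach S t T → a ∈ T → Reach S (t + 1) (insert (c • a) T)

section
variable {X : Type}

lemma Reach.subset {S T : Set (X → ℂ)} {t : ℕ} (h : Reach S t T) : S ⊆ T := by
  induction h with
  | base => exact subset_rfl
  | add a b _ _ _ ih => exact ih.trans (Set.subset_insert _ _)
  | smul c a _ _ ih => exact ih.trans (Set.subset_insert _ _)

lemma Reach.trans {S T U : Set (X → ℂ)} {s t : ℕ} (h : Reach S s T) (h' : Reach T t U) :
    Reach S (s + t) U := by
  induction h' with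
  | base => exact h
  | add a b _ ha hb ih => exact Reach.add a b ih ha hb
  | smul c a _ ha ih => exact Reach.smul c a ih ha

lemma Reach.pull {X' : Type} (g : X' → X) {S T : Set (X → ℂ)} {t : ℕ} (h : Reach S t T)
    (S' : Set (X' → ℂ)) (hS : ∀ u ∈ S, u ∘ g ∈ S') :
    ∃ T', Reach S' t T' ∧ ∀ u ∈ T, u ∘ g ∈ T' := by
  induction h with
  | base => exact ⟨S', Reach.base, hS⟩
  | add a b _ ha hb ih =>
    obtain ⟨T', h1, h2⟩ := ih
    refine ⟨_, Reach.add (a ∘ g) (b ∘ g) h1 (h2 a ha) (h2 b hb), ?_⟩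
    rintro u (rfl | hu)
    · exact Set.mem_insert _ _
    · exact Set.mem_insert_of_mem _ (h2 u hu)
  | smul c a _ ha ih =>
    obtain ⟨T', h1, h2⟩ := ih
    refine ⟨_, Reach.smul c (a ∘ g) h1 (h2 a ha), ?_⟩
    rintro u (rfl | hu)
    · exact Set.mem_insert _ _
    · exact Set.mem_insert_of_mem _ (h2 u hu)

/-- `Get S s U`: from `S` one obtains all of `U` with at most `s` gates. -/
def Get (S : Set (X → ℂ)) (s : ℝ) (U : Set (X → ℂ)) : Prop :=
  ∃ (t : ℕ) (T : Set (X → ℂ)), (t : ℝ) ≤ s ∧ Reach S t T ∧ U ⊆ T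

lemma Get.of_subset {S U : Set (X → ℂ)} (h : U ⊆ S) : Get S 0 U :=
  ⟨0, S, by simp, Reach.base, h⟩

lemma Get.nonneg {S U : Set (X → ℂ)} {s : ℝ} (h : Get S s U) : 0 ≤ s := by
  obtain ⟨t, _, ht, _⟩ := h
  exact (Nat.cast_nonneg t).trans ht

lemma Get.mono {S U U' : Set (X → ℂ)} {s s' : ℝ} (h : Get S s U) (hs : s ≤ s') (hU : U' ⊆ U) :
    Get S s' U' := by
  obtain ⟨t, T, ht, hr, hT⟩ := h
  exact ⟨t, T, ht.trans hs, hr, hU.trans hT⟩

lemma Get.le {S U : Set (X → ℂ)} {s s' : ℝ} (h : Get S s U) (hs : s ≤ s') : Get S s' U :=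
  h.mono hs subset_rfl

lemma Get.start {S S' U : Set (X → ℂ)} {s : ℝ} (h : Get S s U) (hS : S ⊆ S') : Get S' s U := by
  obtain ⟨t, T, ht, hr, hT⟩ := h
  obtain ⟨T', h1, h2⟩ := hr.pull id S' (fun u hu => hS hu)
  exact ⟨t, T', ht, h1, fun u hu => h2 u (hT hu)⟩

lemma Get.bind {S U U' : Set (X → ℂ)} {s s' : ℝ} (h : Get S s U)
    (h' : ∀ T, S ⊆ T → U ⊆ T → Get T s' U') : Get S (s + s') U' := by
  obtain ⟨t, T, ht, hr, hT⟩ := h
  obtain ⟨t', T', ht', hr', hT'⟩ := h' T hr.subset hT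
  exact ⟨t + t', T', by push_cast; linarith, hr.trans hr', hT'⟩

lemma Get.keep {S U : Set (X → ℂ)} {s : ℝ} (h : Get S s U) : Get S s (S ∪ U) := by
  obtain ⟨t, T, ht, hr, hT⟩ := h
  exact ⟨t, T, ht, hr, Set.union_subset hr.subset hT⟩

lemma Get.union {S U U' : Set (X → ℂ)} {s s' : ℝ} (h : Get S s U) (h' : Get S s' U') :
    Get S (s + s') (U ∪ U') :=
  h.bind fun _ hS hU => (h'.start hS).keep.mono le_rfl
    (Set.union_subset_union hU subset_rfl)

lemma Get.biUnion {A : Type} (F : Finset A) {S : Set (X → ℂ)} {s : A → ℝ} {U : A → Set (X → ℂ)}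
    (h : ∀ a ∈ F, Get S (s a) (U a)) : Get S (∑ a ∈ F, s a) (⋃ a ∈ F, U a) := by
  classical
  induction F using Finset.induction_on with
  | empty => simpa using Get.of_subset (Set.empty_subset S)
  | insert a F ha ih =>
    rw [Finset.sum_insert ha, Finset.set_biUnion_insert]
    exact (h a (Finset.mem_insert_self _ _)).union
      (ih fun b hb => h b (Finset.mem_insert_of_mem hb))

lemma Get.iUnion {A : Type} [Fintype A] {S : Set (X → ℂ)} {s : A → ℝ} {U : A → Set (X → ℂ)}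
    (h : ∀ a, Get S (s a) (U a)) : Get S (∑ a, s a) (⋃ a, U a) := by
  simpa using Get.biUnion univ (S := S) (s := s) (U := U) fun a _ => h a

lemma Get.iUnion_const {A : Type} [Fintype A] {S : Set (X → ℂ)} {s : ℝ} {U : A → Set (X → ℂ)}
    (h : ∀ a, Get S s (U a)) : Get S (Fintype.card A * s) (⋃ a, U a) := by
  simpa using Get.iUnion (s := fun _ => s) h

lemma Get.range {A : Type} [Fintype A] {S : Set (X → ℂ)} {s : ℝ} {u : A → X → ℂ}
    (h : ∀ a, Get S s {u a}) : Get S (Fintype.card A * s) (Set.range u) := by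
  refine (Get.iUnion_const h).mono le_rfl ?_
  rintro _ ⟨a, rfl⟩
  exact Set.mem_iUnion.2 ⟨a, rfl⟩

lemma Get.add_one {S : Set (X → ℂ)} {a b : X → ℂ} (ha : a ∈ S) (hb : b ∈ S) :
    Get S 1 {a + b} :=
  ⟨1, _, by simp, Reach.add a b Reach.base ha hb, by simp⟩

lemma Get.smul_one {S : Set (X → ℂ)} (c : ℂ) {a : X → ℂ} (ha : a ∈ S) : Get S 1 {c • a} :=
  ⟨1, _, by simp, Reach.smul c a Reach.base ha, by simp⟩

lemma Get.lincomb {A : Type} (F : Finset A) {S : Set (X → ℂ)} (h0 : (0 : X → ℂ) ∈ S)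
    (c : A → ℂ) (u : A → X → ℂ) (hu : ∀ a ∈ F, c a ≠ 0 → u a ∈ S) :
    Get S (2 * #F) {fun x => ∑ a ∈ F, c a * u a x} := by
  classical
  induction F using Finset.induction_on with
  | empty =>
    simp only [Finset.card_empty, Nat.cast_zero, mul_zero, Finset.sum_empty]
    exact Get.of_subset (by rintro _ rfl; exact h0)
  | insert a F ha ih =>
    have ih' := ih fun b hb => hu b (Finset.mem_insert_of_mem hb)
    simp only [Finset.sum_insert ha, Finset.card_insert_of_notMem ha]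
    by_cases hc : c a = 0
    · simp only [hc, zero_mul, zero_add]
      exact ih'.le (by push_cast; linarith)
    · have h1 := ih'.union (Get.smul_one (c a) (hu a (Finset.mem_insert_self _ _) hc))
      refine (h1.bind fun T _ hT => Get.add_one (a := c a • u a)
        (b := fun x => ∑ a ∈ F, c a * u a x) (hT (by simp)) (hT (by simp))).mono
        (by push_cast; linarith) ?_
      rintro _ rfl
      rfl

end

/-- `Cost s f`: the map `f` is computed by a linear circuit with at most `s` gates. -/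
def Cost {ι κ : Type} (s : ℝ) (f : (ι → ℂ) → κ → ℂ) : Prop :=
  Get (insert 0 (Set.range fun (i : ι) (x : ι → ℂ) => x i)) s
    (Set.range fun (k : κ) (x : ι → ℂ) => f x k)

lemma Cost.get {ι κ X : Type} {s : ℝ} {f : (ι → ℂ) → κ → ℂ} (h : Cost s f) {S : Set (X → ℂ)}
    (h0 : (0 : X → ℂ) ∈ S) (g : X → ι → ℂ) (hg : ∀ i, (fun x => g x i) ∈ S) :
    Get S s (Set.range fun (k : κ) (x : X) => f (g x) k) := by
  obtain ⟨t, T, ht, hr, hT⟩ := h
  obtain ⟨T', h1, h2⟩ := hr.pull g S (by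
    rintro u (rfl | ⟨i, rfl⟩)
    · exact h0
    · exact hg i)
  refine ⟨t, T', ht, h1, ?_⟩
  rintro _ ⟨k, rfl⟩
  exact h2 _ (hT ⟨k, rfl⟩)

lemma Cost.of_get {ι κ : Type} {s : ℝ} {f : (ι → ℂ) → κ → ℂ}
    (h : ∀ S : Set ((ι → ℂ) → ℂ), 0 ∈ S → (∀ i, (fun x => x i) ∈ S) →
      Get S s (Set.range fun (k : κ) (x : ι → ℂ) => f x k)) : Cost s f :=
  h _ (Set.mem_insert _ _) fun i => Set.mem_insert_of_mem _ ⟨i, rfl⟩

lemma Cost.nonneg {ι κ : Type} {s : ℝ} {f : (ι → ℂ) → κ → ℂ} (h : Cost s f) : 0 ≤ s :=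
  Get.nonneg h

lemma Cost.le {ι κ : Type} {s s' : ℝ} {f : (ι → ℂ) → κ → ℂ} (h : Cost s f) (hs : s ≤ s') :
    Cost s' f := Get.le h hs

lemma Cost.congr {ι κ : Type} {s : ℝ} {f f' : (ι → ℂ) → κ → ℂ} (h : Cost s f)
    (hf : ∀ x k, f' x k = f x k) : Cost s f' := by
  have : f' = f := by funext x k; exact hf x k
  rwa [this]

/-- composition -/
lemma Cost.comp {ι κ μ : Type} {s s' : ℝ} {f : (ι → ℂ) → κ → ℂ} {g : (κ → ℂ) → μ → ℂ}
    (hf : Cost s f) (hg : Cost s' g) : Cost (s + s') (fun x => g (f x)) :=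
  Cost.of_get fun _ h0 hS => (hf.get h0 id hS).bind fun _ hT hU =>
    hg.get (hT h0) f fun i => hU ⟨i, rfl⟩

/-- re-reading inputs (or zero) is free -/
lemma Cost.read {ι κ : Type} (f : (ι → ℂ) → κ → ℂ)
    (hf : ∀ k, (∃ i, ∀ x, f x k = x i) ∨ ∀ x, f x k = 0) : Cost 0 f :=
  Cost.of_get fun _ h0 hS => Get.of_subset (by
    rintro _ ⟨k, rfl⟩
    rcases hf k with ⟨i, hi⟩ | hk
    · have : (fun x => f x k) = fun x => x i := funext hi
      simp only [this]; exact hS i
    · have : (fun x => f x k) = 0 := funext hk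
      simp only [this]; exact h0)

/-- reindexing inputs and outputs is free -/
lemma Cost.reindex {ι κ ι' κ' : Type} {s : ℝ} {f : (ι → ℂ) → κ → ℂ} (hf : Cost s f)
    (a : ι → ι') (b : κ' → κ) : Cost s (fun (x : ι' → ℂ) (k : κ') => f (fun i => x (a i)) (b k)) :=
  Cost.of_get fun _ h0 hS => (hf.get h0 (fun x i => x (a i)) fun i => hS (a i)).mono le_rfl (by
    rintro _ ⟨k, rfl⟩; exact ⟨b k, rfl⟩)

/-- every output is an output of one of finitely many circuits -/
lemma Cost.cover {ι κ A : Type} [Fintype A] {μ : A → Type} {s : A → ℝ}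
    {f : ∀ a, (ι → ℂ) → μ a → ℂ} (hf : ∀ a, Cost (s a) (f a)) (g : (ι → ℂ) → κ → ℂ)
    (hg : ∀ k, ∃ a m, ∀ x, g x k = f a x m) : Cost (∑ a, s a) g :=
  Cost.of_get fun _ h0 hS => (Get.iUnion fun a => (hf a).get h0 id hS).mono le_rfl (by
    rintro _ ⟨k, rfl⟩
    obtain ⟨a, m, h⟩ := hg k
    exact Set.mem_iUnion.2 ⟨a, m, (funext h).symm⟩)

/-- scaling and gathering -/
lemma Cost.gather {ι κ : Type} [Fintype κ] (c : κ → ℂ) (π : κ → ι) :
    Cost (Fintype.card κ) (fun (x : ι → ℂ) k => c k * x (π k)) :=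
  Cost.of_get fun _ _ hS => by
    simpa using Get.range (s := 1) (u := fun (k : κ) (x : ι → ℂ) => c k * x (π k))
      fun k => Get.smul_one (c k) (hS (π k))

/-- an arbitrary matrix -/
lemma Cost.matrix {ι κ : Type} [Fintype ι] [Fintype κ] (A : κ → ι → ℂ) :
    Cost (Fintype.card κ * (2 * Fintype.card ι)) (fun (x : ι → ℂ) k => ∑ i, A k i * x i) :=
  Cost.of_get fun _ h0 hS =>
    Get.range (u := fun (k : κ) (x : ι → ℂ) => ∑ i, A k i * x i)
      fun k => Get.lincomb univ h0 (A k) (fun i x => x i) fun i _ _ => hS i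

open Crest.FourierCircuit

lemma reach_circuit {n : ℕ} {t : ℕ} {T : Set ((Fin n → ℂ) → ℂ)}
    (h : Reach (insert 0 (Set.range fun (i : Fin n) (x : Fin n → ℂ) => x i)) t T) :
    ∃ gs : List LGate, gs.length = t ∧
      (∀ x : Fin n → ℂ, (gs.foldl (fun avail g => avail ++ [g.value avail])
        (List.ofFn x ++ [0])).length = n + 1 + t) ∧
      ∀ u ∈ T, ∃ pos, pos < n + 1 + t ∧ ∀ x : Fin n → ℂ,
        (gs.foldl (fun avail g => avail ++ [g.value avail]) (List.ofFn x ++ [0])).getD pos 0 =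
          u x := by
  induction h with
  | base =>
    refine ⟨[], rfl, fun x => by simp, ?_⟩
    rintro u (rfl | ⟨i, rfl⟩)
    · refine ⟨n, by omega, fun x => ?_⟩
      simp [List.getD_eq_getElem?_getD]
    · refine ⟨i, by omega, fun x => ?_⟩
      simp [List.getD_eq_getElem?_getD]
  | @add t T a b _ ha hb ih =>
    obtain ⟨gs, h1, h2, h3⟩ := ih
    obtain ⟨pa, _, hpa⟩ := h3 a ha
    obtain ⟨pb, _, hpb⟩ := h3 b hb
    refine ⟨gs ++ [LGate.add pa pb], by simp [h1], fun x => by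
      rw [List.foldl_append]; simp [h2 x]; omega, ?_⟩
    rintro u (rfl | hu)
    · refine ⟨n + 1 + t, by omega, fun x => ?_⟩
      rw [List.foldl_append]
      simp only [List.foldl_cons, List.foldl_nil]
      rw [List.getD_append_right _ _ _ _ (h2 x).le, h2 x]
      rw [Nat.sub_self, List.getD_cons_zero, Pi.add_apply, ← hpa x, ← hpb x]
      rfl
    · obtain ⟨pu, hlt, hpu⟩ := h3 u hu
      refine ⟨pu, by omega, fun x => ?_⟩
      rw [List.foldl_append]
      simp only [List.foldl_cons, List.foldl_nil]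
      rw [List.getD_append _ _ _ _ (by rw [h2 x]; exact hlt), hpu]
  | @smul t T c a _ ha ih =>
    obtain ⟨gs, h1, h2, h3⟩ := ih
    obtain ⟨pa, _, hpa⟩ := h3 a ha
    refine ⟨gs ++ [LGate.smul c pa], by simp [h1], fun x => by
      rw [List.foldl_append]; simp [h2 x]; omega, ?_⟩
    rintro u (rfl | hu)
    · refine ⟨n + 1 + t, by omega, fun x => ?_⟩
      rw [List.foldl_append]
      simp only [List.foldl_cons, List.foldl_nil]
      rw [List.getD_append_right _ _ _ _ (h2 x).le, h2 x]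
      rw [Nat.sub_self, List.getD_cons_zero, Pi.smul_apply, ← hpa x]
      rfl
    · obtain ⟨pu, hlt, hpu⟩ := h3 u hu
      refine ⟨pu, by omega, fun x => ?_⟩
      rw [List.foldl_append]
      simp only [List.foldl_cons, List.foldl_nil]
      rw [List.getD_append _ _ _ _ (by rw [h2 x]; exact hlt), hpu]

theorem Cost.circuit {n : ℕ} {s : ℝ} (A : Matrix (Fin n) (Fin n) ℂ)
    (h : Cost s (fun x => A.mulVec x)) :
    ∃ P : LinCircuit n, P.Computes A ∧ (P.size : ℝ) ≤ s := by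
  obtain ⟨t, T, ht, hr, hT⟩ := h
  obtain ⟨gs, h1, _, h3⟩ := reach_circuit hr
  choose pos _ hpos using fun k : Fin n => h3 _ (hT ⟨k, rfl⟩)
  refine ⟨⟨gs, pos⟩, fun x k => hpos k x, ?_⟩
  simpa [LinCircuit.size, h1] using ht

end Crest.Agent.R324
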