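import Mathlib
import Crest.Agent.R324.Cost

set_option autoImplicit false

namespace Crest.Agent.R324

open Finset Complex

lemma zmod2_cases (a : ZMod 2) : a = 0 ∨ a = 1 := by
  revert a; decide

lemma sum_zmod2 {M : Type} [AddCommMonoid M] (f : ZMod 2 → M) : ∑ e, f e = f 0 + f 1 :=
  Fin.sum_univ_two (f : Fin 2 → M)

lemma zmod2_add_self (a : ZMod 2) : a + a = 0 := by
  revert a; decide

lemma zmod2_one_add_one : (1 : ZMod 2) + 1 = 0 := rfl

/-- `(-1)^a` -/
noncomputable def sgn (a : ZMod 2) : ℂ := if a = 0 then 1 else -1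

/-- `i^a` -/
noncomputable def ii (a : ZMod 2) : ℂ := if a = 0 then 1 else I

/-- entries of the square root of the swap -/
noncomputable def gm (a : ZMod 2) : ℂ := if a = 0 then (1 + I) / 2 else (1 - I) / 2

@[simp] lemma sgn_zero : sgn 0 = 1 := by simp [sgn]
@[simp] lemma sgn_one : sgn 1 = -1 := by simp [sgn]
@[simp] lemma ii_zero : ii 0 = 1 := by simp [ii]
@[simp] lemma ii_one : ii 1 = I := by simp [ii]
lemma gm_zero : gm 0 = (1 + I) / 2 := by simp [gm]
lemma gm_one : gm 1 = (1 - I) / 2 := by simp [gm]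

lemma sgn_add (a b : ZMod 2) : sgn (a + b) = sgn a * sgn b := by
  rcases zmod2_cases a with rfl | rfl <;> rcases zmod2_cases b with rfl | rfl <;>
    simp [zmod2_one_add_one]

lemma sgn_ne_zero (a : ZMod 2) : sgn a ≠ 0 := by
  rcases zmod2_cases a with rfl | rfl <;> simp

lemma sgn_sum {A : Type} (F : Finset A) (f : A → ZMod 2) :
    sgn (∑ a ∈ F, f a) = ∏ a ∈ F, sgn (f a) := by
  classical
  induction F using Finset.induction_on with
  | empty => simp
  | insert a F ha ih => rw [Finset.sum_insert ha, Finset.prod_insert ha, sgn_add, ih]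

lemma ii_add (a b : ZMod 2) : ii (a + b) = ii a * ii b * sgn (a * b) := by
  rcases zmod2_cases a with rfl | rfl <;> rcases zmod2_cases b with rfl | rfl <;>
    simp [zmod2_one_add_one]

lemma ii_ne_zero (a : ZMod 2) : ii a ≠ 0 := by
  rcases zmod2_cases a with rfl | rfl <;> simp

lemma ii_eq (a : ZMod 2) : ii a = ∑ e, gm e * sgn (e * a) := by
  rw [sum_zmod2, gm_zero, gm_one]
  rcases zmod2_cases a with rfl | rfl
  · simp; ring
  · simp; ring

lemma sum_sgn (a : ZMod 2) : ∑ e, sgn (e * a) = if a = 0 then 2 else 0 := by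
  rw [sum_zmod2]
  rcases zmod2_cases a with rfl | rfl
  · simp; norm_num
  · simp

section
variable {κ : Type} [Fintype κ] [DecidableEq κ]

/-- the characters of the Boolean cube -/
noncomputable def chi (y g : κ → ZMod 2) : ℂ := sgn (∑ k, y k * g k)

/-- Walsh synthesis -/
noncomputable def syn (a : (κ → ZMod 2) → ℂ) (g : κ → ZMod 2) : ℂ := ∑ y, a y * chi y g

/-- Walsh analysis -/
noncomputable def ana (u : (κ → ZMod 2) → ℂ) (y : κ → ZMod 2) : ℂ :=
  (∑ h, u h * chi y h) / 2 ^ Fintype.card κ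

variable (κ) in
/-- tensor power of the square root of the swap -/
noncomputable def Etr (u : (κ → ZMod 2) → ℂ) (g : κ → ZMod 2) : ℂ :=
  ∑ ε : κ → ZMod 2, (∏ k, gm (ε k)) * u (g + ε)

omit [DecidableEq κ] in
lemma chi_add (y g h : κ → ZMod 2) : chi y (g + h) = chi y g * chi y h := by
  unfold chi
  rw [← sgn_add, ← Finset.sum_add_distrib]
  congr 1
  refine Finset.sum_congr rfl fun k _ => ?_
  rw [Pi.add_apply, mul_add]

lemma sum_chi (g : κ → ZMod 2) :
    ∑ y, chi y g = if g = 0 then 2 ^ Fintype.card κ else 0 := by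
  unfold chi
  simp only [sgn_sum]
  rw [← Fintype.piFinset_univ, ← Finset.prod_univ_sum (fun _ => univ)
    (fun k (e : ZMod 2) => sgn (e * g k))]
  simp only [sum_sgn]
  split_ifs with h
  · subst h; simp
  · obtain ⟨k, hk⟩ := Function.ne_iff.1 h
    exact Finset.prod_eq_zero (Finset.mem_univ k) (if_neg hk)

omit [Fintype κ] [DecidableEq κ] in
lemma add_self_pi (g : κ → ZMod 2) : g + g = 0 := by
  funext k; exact zmod2_add_self _

lemma syn_ana (u : (κ → ZMod 2) → ℂ) (g : κ → ZMod 2) : syn (ana u) g = u g := by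
  unfold syn ana
  have : ∀ y, (∑ h, u h * chi y h) / 2 ^ Fintype.card κ * chi y g =
      ∑ h, u h / 2 ^ Fintype.card κ * chi y (h + g) := by
    intro y
    rw [Finset.sum_div, Finset.sum_mul]
    refine Finset.sum_congr rfl fun h _ => ?_
    rw [chi_add]; ring
  simp only [this]
  rw [Finset.sum_comm]
  simp only [← Finset.mul_sum, sum_chi]
  rw [Finset.sum_eq_single g]
  · rw [if_pos (add_self_pi g)]; field_simp
  · intro h _ hh
    rw [if_neg, mul_zero]
    intro h0
    apply hh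
    have := congrArg (· + g) h0
    simpa [add_assoc, add_self_pi] using this
  · simp

lemma syn_mul_chi (a : (κ → ZMod 2) → ℂ) (w g : κ → ZMod 2) :
    syn (fun y => chi y w * a y) g = syn a (g + w) := by
  unfold syn
  refine Finset.sum_congr rfl fun y _ => ?_
  rw [chi_add]; ring

lemma syn_mul_ii {Λ : Type} [Fintype Λ] [DecidableEq Λ] (z : Λ → κ → ZMod 2)
    (a : (κ → ZMod 2) → ℂ) (g : κ → ZMod 2) :
    syn (fun y => (∏ l, ii (∑ k, y k * z l k)) * a y) g =
      ∑ ε : Λ → ZMod 2, (∏ l, gm (ε l)) * syn a (g + fun k => ∑ l, ε l * z l k) := by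
  have h1 : ∀ y : κ → ZMod 2, ∏ l, ii (∑ k, y k * z l k) =
      ∑ ε : Λ → ZMod 2, (∏ l, gm (ε l)) * chi y (fun k => ∑ l, ε l * z l k) := by
    intro y
    simp only [ii_eq]
    rw [Finset.prod_univ_sum, Fintype.piFinset_univ]
    refine Finset.sum_congr rfl fun ε _ => ?_
    rw [Finset.prod_mul_distrib, ← sgn_sum]
    unfold chi
    congr 2
    simp only [Finset.mul_sum]
    rw [Finset.sum_comm]
    refine Finset.sum_congr rfl fun k _ => Finset.sum_congr rfl fun l _ => ?_
    ring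
  simp only [h1, ← syn_mul_chi]
  unfold syn
  simp only [Finset.mul_sum, Finset.sum_mul]
  rw [Finset.sum_comm]
  refine Finset.sum_congr rfl fun ε _ => Finset.sum_congr rfl fun y _ => ?_
  ring

lemma syn_Etr (a : (κ → ZMod 2) → ℂ) (g : κ → ZMod 2) :
    syn (fun y => (∏ k, ii (y k)) * a y) g = Etr κ (syn a) g := by
  have := syn_mul_ii (fun l k : κ => if k = l then (1 : ZMod 2) else 0) a g
  simp only [mul_ite, mul_one, mul_zero, Finset.sum_ite_eq', Finset.sum_ite_eq, Finset.mem_univ,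
    if_true] at this
  exact this

end

section
variable {K : Type} [Fintype K] [DecidableEq K]

/-- rank-one form -/
def rk1 (v : K → ZMod 2) : K → K → ZMod 2 := fun a b => v a * v b

/-- `φ` is a quadratic refinement of `A` -/
def Ref (φ : (K → ZMod 2) → ℂ) (A : K → K → ZMod 2) : Prop :=
  (∀ y, φ y ≠ 0) ∧ ∀ y z, φ (y + z) = φ y * φ z * sgn (∑ a, ∑ b, y a * A a b * z b)

omit [DecidableEq K] in
lemma Ref.one : Ref (fun _ : K → ZMod 2 => (1 : ℂ)) 0 := ⟨fun _ => one_ne_zero, by simp⟩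

omit [DecidableEq K] in
lemma Ref.mul {φ ψ : (K → ZMod 2) → ℂ} {A B : K → K → ZMod 2} (h : Ref φ A) (h' : Ref ψ B) :
    Ref (fun y => ψ y * φ y) (A + B) := by
  refine ⟨fun y => mul_ne_zero (h'.1 y) (h.1 y), fun y z => ?_⟩
  have : ∑ a, ∑ b, y a * (A + B) a b * z b =
      ∑ a, ∑ b, y a * A a b * z b + ∑ a, ∑ b, y a * B a b * z b := by
    simp only [← Finset.sum_add_distrib, Pi.add_apply]
    refine Finset.sum_congr rfl fun a _ => Finset.sum_congr rfl fun b _ => ?_
    ring
  simp only [this, sgn_add, h.2, h'.2]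
  ring

omit [DecidableEq K] in
lemma Ref.rk1 (v : K → ZMod 2) : Ref (fun y => ii (∑ a, y a * v a)) (rk1 v) := by
  refine ⟨fun y => ii_ne_zero _, fun y z => ?_⟩
  have h1 : ∑ a, (y + z) a * v a = ∑ a, y a * v a + ∑ a, z a * v a := by
    simp only [← Finset.sum_add_distrib, Pi.add_apply, add_mul]
  have h2 : ∑ a, ∑ b, y a * R324.rk1 v a b * z b = (∑ a, y a * v a) * ∑ a, z a * v a := by
    rw [Finset.sum_mul_sum]
    refine Finset.sum_congr rfl fun a _ => Finset.sum_congr rfl fun b _ => ?_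
    unfold R324.rk1; ring
  simp only [h1, h2, ii_add]

lemma Ref.uniq {φ ψ : (K → ZMod 2) → ℂ} {A : K → K → ZMod 2} (h : Ref φ A) (h' : Ref ψ A) :
    ∃ w : K → ZMod 2, ∀ y, ψ y = sgn (∑ a, y a * w a) * φ y := by
  set ρ : (K → ZMod 2) → ℂ := fun y => ψ y / φ y with hρ
  have hmul : ∀ y z, ρ (y + z) = ρ y * ρ z := fun y z => by
    have := h.1 y
    have := h.1 z
    have := sgn_ne_zero (∑ a, ∑ b, y a * A a b * z b)
    simp only [hρ, h.2, h'.2]
    field_simp
  have hne : ∀ y, ρ y ≠ 0 := fun y => div_ne_zero (h'.1 y) (h.1 y)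
  have h0 : ρ 0 = 1 := by
    have := hmul 0 0
    rw [add_zero] at this
    exact (mul_eq_left₀ (hne 0)).1 this.symm
  have hsum : ∀ (F : Finset K) (f : K → K → ZMod 2), ρ (∑ a ∈ F, f a) = ∏ a ∈ F, ρ (f a) := by
    intro F f
    induction F using Finset.induction_on with
    | empty => simpa using h0
    | insert a F ha ih => rw [Finset.sum_insert ha, Finset.prod_insert ha, hmul, ih]
  classical
  refine ⟨fun a => if ρ (Pi.single a 1) = 1 then 0 else 1, fun y => ?_⟩
  have : ρ y = sgn (∑ a, y a * if ρ (Pi.single a 1) = 1 then 0 else 1) := by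
    conv_lhs => rw [← Finset.univ_sum_single y]
    rw [hsum, sgn_sum]
    refine Finset.prod_congr rfl fun a _ => ?_
    rcases zmod2_cases (y a) with h1 | h1
    · rw [h1]; simpa using h0
    · rw [h1]
      split_ifs with h2
      · simpa using h2
      · have h3 := hmul (Pi.single a 1) (Pi.single a 1)
        rw [add_self_pi, h0] at h3
        rcases mul_self_eq_one_iff.1 h3.symm with h4 | h4
        · exact absurd h4 h2
        · simpa using h4
  rw [← this, hρ]
  have := h.1 y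
  field_simp

/-- `B` is a sum of at most `r` rank-one forms -/
def Near (r : ℕ) (B : K → K → ZMod 2) : Prop :=
  ∃ (J : Type) (F : Finset J) (v : J → K → ZMod 2), #F ≤ r ∧ B = ∑ j ∈ F, rk1 (v j)

omit [DecidableEq K] in
lemma Near.exists_ref {r : ℕ} {B : K → K → ZMod 2} (h : Near r B) : ∃ φ, Ref φ B := by
  classical
  obtain ⟨J, F, v, -, rfl⟩ := h
  induction F using Finset.induction_on with
  | empty => exact ⟨_, Ref.one⟩
  | insert a F ha ih =>
    obtain ⟨φ, hφ⟩ := ih
    rw [Finset.sum_insert ha]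
    exact ⟨_, (Ref.rk1 (v a)).mul hφ⟩

variable {Λ : Type} [Fintype Λ] [DecidableEq Λ] {X : Type}

/-- the phase on `Λ` copies -/
noncomputable def ph (φ : (K → ZMod 2) → ℂ) (y : Λ × K → ZMod 2) : ℂ :=
  ∏ l, φ (fun a => y (l, a))

/-- the physical coordinates of the logical value `F` at location `A` -/
def avs (A : K → K → ZMod 2) (F : X → (Λ × K → ZMod 2) → ℂ) : Set (X → ℂ) :=
  {u | ∃ φ, Ref φ A ∧ ∃ g, u = fun x => syn (fun y => ph φ y * F x y) g}

lemma avs_subset {φ : (K → ZMod 2) → ℂ} {A : K → K → ZMod 2} (h : Ref φ A)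
    (F : X → (Λ × K → ZMod 2) → ℂ) :
    avs A F ⊆ Set.range fun (g : Λ × K → ZMod 2) (x : X) => syn (fun y => ph φ y * F x y) g := by
  rintro _ ⟨ψ, hψ, g, rfl⟩
  obtain ⟨w, hw⟩ := h.uniq hψ
  refine ⟨g + fun q => w q.2, ?_⟩
  funext x
  simp only [← syn_mul_chi]
  congr 1
  funext y
  unfold ph chi
  simp only [hw]
  rw [Finset.prod_mul_distrib, ← sgn_sum, Fintype.sum_prod_type, mul_assoc]

lemma cost_move1 {s : ℝ} (hs : Cost s (Etr Λ)) (v : K → ZMod 2) :
    Cost (2 ^ (Fintype.card Λ * (Fintype.card K - 1)) * s)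
      (fun (u : (Λ × K → ZMod 2) → ℂ) (g : Λ × K → ZMod 2) =>
        ∑ ε : Λ → ZMod 2, (∏ l, gm (ε l)) * u (g + fun q => ε q.1 * v q.2)) := by
  by_cases hv : v = 0
  · subst hv
    refine (Cost.read _ fun g => Or.inl ⟨g, fun u => ?_⟩).le (by have := hs.nonneg; positivity)
    have h1 : ∀ ε : Λ → ZMod 2, (g + fun q => ε q.1 * (0 : K → ZMod 2) q.2) = g := fun ε => by
      funext q; simp
    simp only [h1]
    rw [← Finset.sum_mul, ← Fintype.piFinset_univ, ← Finset.prod_univ_sum (fun _ => univ)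
      (fun _ (e : ZMod 2) => gm e)]
    simp only [sum_zmod2, gm_zero, gm_one]
    rw [Finset.prod_eq_one (fun _ _ => by ring), one_mul]
  obtain ⟨d, hd⟩ := Function.ne_iff.1 hv
  have hd1 : v d = 1 := (zmod2_cases _).resolve_left hd
  obtain ⟨ext, hext⟩ : ∃ ext : (Λ × {a // a ≠ d} → ZMod 2) → Λ × K → ZMod 2,
      ∀ g q, ext g q = if h : q.2 = d then 0 else g (q.1, ⟨q.2, h⟩) := ⟨_, fun _ _ => rfl⟩
  obtain ⟨emb, hemb⟩ : ∃ emb : (Λ → ZMod 2) → Λ × K → ZMod 2,
      ∀ ε, emb ε = fun q => ε q.1 * v q.2 := ⟨_, fun _ => rfl⟩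
  simp only [← hemb]
  have h1 : ∀ g0 : Λ × {a // a ≠ d} → ZMod 2, Cost s (fun (u : (Λ × K → ZMod 2) → ℂ)
      (δ : Λ → ZMod 2) => Etr Λ (fun ε => u (ext g0 + emb ε)) δ) :=
    fun g0 => hs.reindex (fun ε => ext g0 + emb ε) (fun δ => δ)
  have h2 := Cost.cover h1
    (fun (u : (Λ × K → ZMod 2) → ℂ) (g : Λ × K → ZMod 2) =>
        ∑ ε : Λ → ZMod 2, (∏ l, gm (ε l)) * u (g + emb ε)) (fun g => by
      refine ⟨fun q => g (q.1, q.2) + g (q.1, d) * v q.2, fun l => g (l, d), fun u => ?_⟩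
      unfold Etr
      refine Finset.sum_congr rfl fun ε _ => ?_
      have : g + emb ε = ext (fun q => g (q.1, q.2) + g (q.1, d) * v q.2) +
          emb ((fun l => g (l, d)) + ε) := by
        funext ⟨l, a⟩
        simp only [hext, hemb, Pi.add_apply]
        split_ifs with h
        · subst h; rw [hd1]; ring
        · linear_combination (-1 : ZMod 2) * zmod2_add_self (g (l, d) * v a)
      rw [this])
  refine h2.le (le_of_eq ?_)
  rw [Finset.sum_const, Finset.card_univ, Fintype.card_fun, Fintype.card_prod,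
    Fintype.card_subtype_compl, ZMod.card, Fintype.card_subtype_eq, nsmul_eq_mul]
  push_cast
  rfl

lemma get_move1 {s : ℝ} (hs : Cost s (Etr Λ)) {S : Set (X → ℂ)} (h0 : (0 : X → ℂ) ∈ S)
    {A : K → K → ZMod 2} {F : X → (Λ × K → ZMod 2) → ℂ} (hA : avs A F ⊆ S) (v : K → ZMod 2) :
    Get S (2 ^ (Fintype.card Λ * (Fintype.card K - 1)) * s) (avs (A + rk1 v) F) := by
  by_cases hex : ∃ φ', Ref φ' (A + rk1 v)
  · obtain ⟨φ', hφ'⟩ := hex
    have h1 := hφ'.mul (Ref.rk1 v)
    have h2 : A + rk1 v + rk1 v = A := by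
      funext a b; simp only [Pi.add_apply, add_assoc, zmod2_add_self, add_zero]
    rw [h2] at h1
    generalize (fun y => ii (∑ a, y a * v a) * φ' y) = φ at h1
    refine ((cost_move1 hs v).get h0 (fun x => syn (fun y => ph φ y * F x y))
      fun g => hA ⟨φ, h1, g, rfl⟩).mono le_rfl ((avs_subset (h1.mul (Ref.rk1 v)) F).trans ?_)
    rintro _ ⟨g, rfl⟩
    refine ⟨g, ?_⟩
    funext x
    have := syn_mul_ii (fun (l : Λ) (q : Λ × K) => if q.1 = l then v q.2 else 0)
      (fun y => ph φ y * F x y) g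
    simp only [mul_ite, mul_zero, Finset.sum_ite_eq, Finset.mem_univ, if_true] at this
    simp only
    rw [← this]
    congr 1
    funext y
    unfold ph
    rw [Finset.prod_mul_distrib, mul_assoc]
    congr 2
    funext l
    rw [Fintype.sum_prod_type, Finset.sum_comm]
    simp
  · refine (Get.of_subset ?_).le (by have := hs.nonneg; positivity)
    rintro _ ⟨φ, hφ, _⟩
    exact absurd ⟨φ, hφ⟩ hex

lemma get_move {s : ℝ} (hs : Cost s (Etr Λ)) {S : Set (X → ℂ)} (h0 : (0 : X → ℂ) ∈ S)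
    {A B : K → K → ZMod 2} {F : X → (Λ × K → ZMod 2) → ℂ} (hA : avs A F ⊆ S) {r : ℕ}
    (hB : Near r (A + B)) :
    Get S (r * (2 ^ (Fintype.card Λ * (Fintype.card K - 1)) * s)) (avs B F) := by
  classical
  obtain ⟨J, T, v, hr, hv⟩ := hB
  have hB' : B = A + ∑ j ∈ T, rk1 (v j) := by
    rw [← hv]
    funext a b
    simp only [Pi.add_apply, ← add_assoc, zmod2_add_self, zero_add]
  subst hB'
  have hs0 := hs.nonneg
  refine Get.le (s := #T * (2 ^ (Fintype.card Λ * (Fintype.card K - 1)) * s)) ?_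
    (mul_le_mul_of_nonneg_right (by exact_mod_cast hr) (by positivity))
  clear hr hv
  induction T using Finset.induction_on with
  | empty => simpa using Get.of_subset hA
  | insert j T hj ih =>
    rw [Finset.sum_insert hj, Finset.card_insert_of_notMem hj, add_comm (rk1 (v j)), ← add_assoc]
    refine (ih.bind fun S' h1 h2 => get_move1 hs (h1 h0) h2 (v j)).le (le_of_eq ?_)
    push_cast; ring

lemma get_lin {S : Set (X → ℂ)} (h0 : (0 : X → ℂ) ∈ S) {J : Type} [Fintype J]
    (A : K → K → ZMod 2) (c : J → ℂ) (F : J → X → (Λ × K → ZMod 2) → ℂ)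
    (hF : ∀ j, c j ≠ 0 → avs A (F j) ⊆ S) :
    Get S (Fintype.card J * (2 * 2 ^ (Fintype.card Λ * Fintype.card K)))
      (avs A fun x y => ∑ j, c j * F j x y) := by
  by_cases hex : ∃ φ, Ref φ A
  · obtain ⟨φ, hφ⟩ := hex
    have := Get.range (A := Λ × K → ZMod 2) (S := S) (s := 2 * #(univ : Finset J))
      (u := fun g x => ∑ j, c j * syn (fun y => ph φ y * F j x y) g)
      fun g => Get.lincomb univ h0 c (fun j x => syn (fun y => ph φ y * F j x y) g)
        fun j _ hj => hF j hj ⟨φ, hφ, g, rfl⟩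
    refine this.mono (le_of_eq ?_) ((avs_subset hφ _).trans ?_)
    · simp; ring
    · rintro _ ⟨g, rfl⟩
      refine ⟨g, ?_⟩
      funext x
      unfold syn
      simp only [Finset.mul_sum, Finset.sum_mul]
      rw [Finset.sum_comm]
      refine Finset.sum_congr rfl fun y _ => Finset.sum_congr rfl fun j _ => ?_
      ring
  · refine (Get.of_subset ?_).le (by positivity)
    rintro _ ⟨φ, hφ, _⟩
    exact absurd ⟨φ, hφ⟩ hex

end

end Crest.Agent.R324
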