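import Mathlib
import Crest.Agent.R324.Syn

set_option autoImplicit false

namespace Crest.Agent.R324

open Finset

section
variable {K : Type}

lemma Near.mono {r r' : ℕ} {A : K → K → ZMod 2} (h : Near r A) (hr : r ≤ r') : Near r' A := by
  obtain ⟨J, F, v, h1, h2⟩ := h
  exact ⟨J, F, v, h1.trans hr, h2⟩

lemma Near.add {r r' : ℕ} {A B : K → K → ZMod 2} (h : Near r A) (h' : Near r' B) :
    Near (r + r') (A + B) := by
  obtain ⟨J, F, v, h1, rfl⟩ := h
  obtain ⟨J', F', v', h1', rfl⟩ := h'
  exact ⟨J ⊕ J', F.disjSum F', Sum.elim v v', by rw [Finset.card_disjSum]; omega, by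
    rw [Finset.sum_disjSum]; rfl⟩

lemma Near.rk1 (v : K → ZMod 2) : Near 1 (rk1 v) :=
  ⟨Unit, univ, fun _ => v, by simp, by simp⟩

lemma Near.congr {r : ℕ} {A B : K → K → ZMod 2} (h : Near r A) (hAB : B = A) : Near r B :=
  hAB ▸ h

/-- Kronecker product -/
def kron {K' : Type} (A : K → K → ZMod 2) (B : K' → K' → ZMod 2) : K × K' → K × K' → ZMod 2 :=
  fun p q => A p.1 q.1 * B p.2 q.2

lemma Near.kron {K' : Type} {r r' : ℕ} {A : K → K → ZMod 2} {B : K' → K' → ZMod 2}
    (h : Near r A) (h' : Near r' B) : Near (r * r') (kron A B) := by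
  obtain ⟨J, F, v, h1, rfl⟩ := h
  obtain ⟨J', F', v', h1', rfl⟩ := h'
  refine ⟨J × J', F ×ˢ F', fun j q => v j.1 q.1 * v' j.2 q.2, by
    rw [Finset.card_product]; exact Nat.mul_le_mul h1 h1', ?_⟩
  funext p q
  simp only [R324.kron, R324.rk1, Finset.sum_apply, Finset.sum_product, Finset.sum_mul_sum]
  refine Finset.sum_congr rfl fun a _ => Finset.sum_congr rfl fun b _ => ?_
  ring

variable [DecidableEq K]

variable (K) in
/-- the identity form -/
def idm : K → K → ZMod 2 := fun a b => if a = b then 1 else 0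

lemma kron_idm {K' : Type} [DecidableEq K'] : kron (idm K) (idm K') = idm (K × K') := by
  funext p q
  simp only [kron, idm, Prod.ext_iff]
  by_cases h1 : p.1 = q.1 <;> by_cases h2 : p.2 = q.2 <;> simp [h1, h2]

variable [Fintype K]

lemma sum_rk1_single : ∑ t : K, rk1 (fun a => if a = t then (1 : ZMod 2) else 0) = idm K := by
  funext a b
  simp only [rk1, idm, Finset.sum_apply, ite_mul, one_mul, zero_mul, Finset.sum_ite_eq,
    Finset.mem_univ, if_true]
  simp only [eq_comm]

lemma Near.idm : Near (Fintype.card K) (idm K) :=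
  ⟨K, univ, _, le_rfl, sum_rk1_single.symm⟩

lemma ref_idm : Ref (fun y : K → ZMod 2 => ∏ a, ii (y a)) (idm K) := by
  refine ⟨fun y => Finset.prod_ne_zero_iff.2 fun a _ => ii_ne_zero _, fun y z => ?_⟩
  simp only [Pi.add_apply, ii_add, Finset.prod_mul_distrib, ← sgn_sum, R324.idm, mul_ite,
    mul_one, mul_zero, ite_mul, zero_mul, Finset.sum_ite_eq, Finset.mem_univ, if_true]

lemma transvection (e : K → K → ZMod 2) (he : ∑ t, rk1 (e t) = idm K) (u : K → ZMod 2)
    (hu : ∑ a, u a * u a = 0) :
    ∑ t, rk1 (fun a => e t a + (∑ c, e t c * u c) * u a) = idm K := by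
  have h1 : ∀ a b, ∑ t, e t a * e t b = if a = b then 1 else 0 := fun a b => by
    have := congrFun (congrFun he a) b
    simpa [rk1, idm, Finset.sum_apply] using this
  have h2 : ∀ a, ∑ t, e t a * ∑ c, e t c * u c = u a := fun a => by
    simp only [Finset.mul_sum, ← mul_assoc]
    rw [Finset.sum_comm]
    simp only [← Finset.sum_mul, h1]
    simp
  have h3 : ∑ t, (∑ c, e t c * u c) * ∑ c, e t c * u c = 0 := by
    calc _ = ∑ t, ∑ a, u a * (e t a * ∑ c, e t c * u c) := by
          refine Finset.sum_congr rfl fun t _ => ?_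
          rw [Finset.sum_mul]
          refine Finset.sum_congr rfl fun c _ => ?_
          ring
      _ = ∑ a, u a * u a := by
          rw [Finset.sum_comm]
          simp only [← Finset.mul_sum (s := univ) (f := fun t => e t _ * ∑ c, e t c * u c), h2]
      _ = 0 := hu
  funext a b
  simp only [rk1, idm, Finset.sum_apply]
  have : ∑ t, (e t a + (∑ c, e t c * u c) * u a) * (e t b + (∑ c, e t c * u c) * u b) =
      ∑ t, e t a * e t b + u b * ∑ t, e t a * ∑ c, e t c * u c +
        u a * ∑ t, e t b * ∑ c, e t c * u c +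
        u a * u b * ∑ t, (∑ c, e t c * u c) * ∑ c, e t c * u c := by
    simp only [Finset.mul_sum (s := univ) (a := u b), Finset.mul_sum (s := univ) (a := u a),
      Finset.mul_sum (s := univ) (a := u a * u b), ← Finset.sum_add_distrib]
    refine Finset.sum_congr rfl fun t _ => ?_
    ring
  rw [this, h1, h2, h2, h3]
  linear_combination zmod2_add_self (u a * u b)

lemma near_of_basis (e : K → K → ZMod 2) (he : ∑ t, rk1 (e t) = idm K) (F : Finset K) :
    Near (Fintype.card K - #F) (idm K + ∑ t ∈ F, rk1 (e t)) := by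
  refine ⟨K, Fᶜ, e, by rw [Finset.card_compl], ?_⟩
  rw [← he, ← Finset.sum_compl_add_sum F]
  funext a b
  simp only [Pi.add_apply, add_assoc, zmod2_add_self, add_zero]

lemma sum_ite_mul_self (v : K → ZMod 2) (d : K) (hv : ∑ a, v a * v a = 1) (hd : v d = 0) :
    ∑ a, (v a + if a = d then 1 else 0) * (v a + if a = d then 1 else 0) = 0 := by
  have : ∀ a, (v a + if a = d then 1 else 0) * (v a + if a = d then 1 else 0) =
      v a * v a + if a = d then 1 else 0 := fun a => by
    split_ifs with h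
    · subst h; simp [hd]
    · simp
  simp only [this, Finset.sum_add_distrib, hv]
  simp [zmod2_one_add_one]

lemma near_one (v : K → ZMod 2) (d : K) (hv : ∑ a, v a * v a = 1) (hd : v d = 0) :
    Near (Fintype.card K - 1) (idm K + rk1 v) := by
  have h := near_of_basis _ (transvection _ sum_rk1_single
    (fun a => v a + if a = d then 1 else 0) (sum_ite_mul_self v d hv hd)) {d}
  rw [Finset.card_singleton, Finset.sum_singleton] at h
  refine h.congr ?_
  congr 2
  funext a
  simp only [ite_mul, one_mul, zero_mul, Finset.sum_ite_eq', Finset.mem_univ, if_true, hd,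
    zero_add]
  linear_combination (-1 : ZMod 2) * zmod2_add_self (if a = d then (1 : ZMod 2) else 0)

lemma near_two (v v' : K → ZMod 2) (d d' : K) (hdd : d ≠ d') (hv : ∑ a, v a * v a = 1)
    (hv' : ∑ a, v' a * v' a = 1) (hvv : ∑ a, v a * v' a = 0) (hd : v d = 0) (hd' : v d' = 0)
    (h'd : v' d = 0) (h'd' : v' d' = 0) :
    Near (Fintype.card K - 2) (idm K + rk1 v + rk1 v') := by
  have h := near_of_basis _ (transvection _ (transvection _ sum_rk1_single
    (fun a => v a + if a = d then 1 else 0) (sum_ite_mul_self v d hv hd))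
    (fun a => v' a + if a = d' then 1 else 0) (sum_ite_mul_self v' d' hv' h'd')) {d, d'}
  rw [Finset.card_pair hdd, Finset.sum_pair hdd] at h
  refine h.congr ?_
  have e1 : ∀ a, (if a = d then (1 : ZMod 2) else 0) + (v a + if a = d then 1 else 0) = v a :=
    fun a => by linear_combination zmod2_add_self (if a = d then (1 : ZMod 2) else 0)
  have e2 : ∀ a, (if a = d' then (1 : ZMod 2) else 0) + (v' a + if a = d' then 1 else 0) = v' a :=
    fun a => by linear_combination zmod2_add_self (if a = d' then (1 : ZMod 2) else 0)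
  rw [add_assoc]
  congr 3
  · funext a
    simp only [ite_mul, one_mul, zero_mul, Finset.sum_ite_eq', Finset.mem_univ, if_true, hd,
      zero_add, e1, mul_add, Finset.sum_add_distrib, hvv, mul_ite, mul_one, mul_zero, hd',
      add_zero, ite_self]
  · funext a
    simp only [ite_mul, one_mul, zero_mul, Finset.sum_ite_eq', Finset.mem_univ, if_true, hd',
      zero_add, if_neg hdd.symm, add_zero, h'd', e2]

end

/-- triples -/
abbrev Tr : Type := {s : Finset (Fin 100) // #s = 3}

/-- indicator vector of a triple -/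
def tv (S : Tr) : Fin 100 → ZMod 2 := fun a => if a ∈ S.1 then 1 else 0

lemma card_Tr : Fintype.card Tr = 161700 := by
  rw [Fintype.card_finset_len]
  simp [Nat.choose]

lemma tv_dot (S T : Tr) : ∑ a, tv S a * tv T a = (#(S.1 ∩ T.1) : ZMod 2) := by
  unfold tv
  simp only [ite_mul, one_mul, zero_mul, ← ite_and, ← Finset.mem_inter]
  rw [Finset.sum_ite_mem, Finset.univ_inter, Finset.sum_const, nsmul_eq_mul, mul_one]

lemma tv_self (S : Tr) : ∑ a, tv S a * tv S a = 1 := by
  rw [tv_dot, Finset.inter_self, S.2]; rfl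

lemma exists_two_outside (S T : Tr) : ∃ d d' : Fin 100, d ≠ d' ∧ d ∉ S.1 ∪ T.1 ∧ d' ∉ S.1 ∪ T.1 := by
  have h1 : #(S.1 ∪ T.1) ≤ 6 := (Finset.card_union_le _ _).trans (by rw [S.2, T.2])
  have h2 : 1 < #(S.1 ∪ T.1)ᶜ := by rw [Finset.card_compl, Fintype.card_fin]; omega
  obtain ⟨d, hd, d', hd', hne⟩ := Finset.one_lt_card.1 h2
  exact ⟨d, d', hne, Finset.mem_compl.1 hd, Finset.mem_compl.1 hd'⟩

lemma near_q (S : Tr) : Near 99 (idm (Fin 100) + rk1 (tv S)) := by
  obtain ⟨d, _, _, hd, _⟩ := exists_two_outside S S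
  simpa using near_one (tv S) d (tv_self S) (by simpa [tv] using hd)

lemma near_qq (S T : Tr) (h : Even #(S.1 ∩ T.1)) :
    Near 98 (idm (Fin 100) + rk1 (tv S) + rk1 (tv T)) := by
  obtain ⟨d, d', hne, hd, hd'⟩ := exists_two_outside S T
  simp only [Finset.mem_union, not_or] at hd hd'
  simpa using near_two (tv S) (tv T) d d' hne (tv_self S) (tv_self T)
    (by rw [tv_dot]; exact (ZMod.natCast_eq_zero_iff_even).2 h)
    (by simp [tv, hd.1]) (by simp [tv, hd'.1]) (by simp [tv, hd.2]) (by simp [tv, hd'.2])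

/-- orthogonal pairs of triples -/
abbrev Hp : Type := {q : Tr × Tr // Even #(q.1.1 ∩ q.2.1)}

lemma coeff_identity (ε : ℂ) (S T : Tr) :
    ∑ k : Fin 100, (ε * ((if k ∈ T.1 then 1 else 0) - 1 / 3) / 2) * (if k ∈ S.1 then 1 else 0) =
      ∑ h : Hp, (if h.1.2 = T ∧ h.1.1 = S then ε * ((#(h.1.1.1 ∩ h.1.2.1) : ℂ) - 1) / 2 else 0) +
        if S = T then ε else 0 := by
  have h1 : ∑ k : Fin 100, (ε * ((if k ∈ T.1 then 1 else 0) - 1 / 3) / 2) *
      (if k ∈ S.1 then 1 else 0) = ε * ((#(S.1 ∩ T.1) : ℂ) - 1) / 2 := by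
    have : ∀ k : Fin 100, (ε * ((if k ∈ T.1 then 1 else 0) - 1 / 3) / 2) *
        (if k ∈ S.1 then 1 else 0) =
        ε / 2 * (if k ∈ S.1 ∩ T.1 then 1 else 0) - ε / 6 * (if k ∈ S.1 then 1 else 0) := by
      intro k
      simp only [Finset.mem_inter]
      by_cases h1 : k ∈ S.1 <;> by_cases h2 : k ∈ T.1 <;> simp [h1, h2] <;> ring
    simp only [this, Finset.sum_sub_distrib, ← Finset.mul_sum]
    simp only [Finset.sum_ite_mem, Finset.univ_inter, Finset.sum_const, nsmul_eq_mul, mul_one,
      S.2]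
    push_cast
    ring
  rw [h1]
  by_cases he : Even #(S.1 ∩ T.1)
  · have hne : S ≠ T := by
      rintro rfl
      rw [Finset.inter_self, S.2] at he
      exact absurd he (by decide)
    rw [if_neg hne, add_zero, Finset.sum_eq_single (⟨(S, T), he⟩ : Hp)]
    · simp
    · rintro ⟨⟨S', T'⟩, h⟩ _ hne
      rw [if_neg]
      rintro ⟨rfl, rfl⟩
      exact hne rfl
    · simp
  · rw [Finset.sum_eq_zero, zero_add]
    · split_ifs with h
      · subst h
        rw [Finset.inter_self, S.2]; push_cast; ring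
      · have h2 : #(S.1 ∩ T.1) < 3 := by
          by_contra h3
          apply h
          have h4 : S.1 ∩ T.1 = S.1 :=
            Finset.eq_of_subset_of_card_le Finset.inter_subset_left (by rw [S.2]; omega)
          have h5 : S.1 ∩ T.1 = T.1 :=
            Finset.eq_of_subset_of_card_le Finset.inter_subset_right (by rw [T.2]; omega)
          exact Subtype.ext (h4.symm.trans h5)
        have h3 : #(S.1 ∩ T.1) = 1 := by
          rw [Nat.not_even_iff] at he; omega
        rw [h3]; simp
    · rintro ⟨⟨S', T'⟩, h⟩ _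
      rw [if_neg]
      rintro ⟨rfl, rfl⟩
      exact he h

end Crest.Agent.R324
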