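import Mathlib
import Crest.Agent.R324.Near

set_option autoImplicit false

namespace Crest.Agent.R324

open Finset

section
variable {K : Type} [Fintype K] [DecidableEq K] {Λ : Type} [Fintype Λ] [DecidableEq Λ] {X : Type}

omit [Fintype K] [DecidableEq K] in
lemma loc_add_self (A : K → K → ZMod 2) : A + A = 0 := by
  funext a b; exact zmod2_add_self _

variable (K Λ) in
/-- cost of one move -/
noncomputable def c1 (s : ℝ) : ℝ := 2 ^ (Fintype.card Λ * (Fintype.card K - 1)) * s

variable (K Λ) in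
/-- cost of one local operation -/
noncomputable def c2 : ℝ := 2 * 2 ^ (Fintype.card Λ * Fintype.card K)

lemma move_fam {s : ℝ} (hs : Cost s (Etr Λ)) {S : Set (X → ℂ)} (h0 : (0 : X → ℂ) ∈ S)
    {J : Type} [Fintype J] (A B : J → K → K → ZMod 2) (F : J → X → (Λ × K → ZMod 2) → ℂ)
    (hA : ∀ j, avs (A j) (F j) ⊆ S) (r : ℕ) (hB : ∀ j, Near r (A j + B j)) :
    Get S (Fintype.card J * (r * c1 K Λ s)) (⋃ j, avs (B j) (F j)) :=
  Get.iUnion_const fun j => get_move hs h0 (hA j) (hB j)

lemma lin_fam {S : Set (X → ℂ)} (h0 : (0 : X → ℂ) ∈ S) {J J' : Type} [Fintype J] [Fintype J']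
    (A : J → K → K → ZMod 2) (c : J → J' → ℂ) (F : J → J' → X → (Λ × K → ZMod 2) → ℂ)
    (hF : ∀ j i, c j i ≠ 0 → avs (A j) (F j i) ⊆ S) :
    Get S (Fintype.card J * (Fintype.card J' * c2 K Λ))
      (⋃ j, avs (A j) fun x y => ∑ i, c j i * F j i x y) :=
  Get.iUnion_const fun j => get_lin h0 (A j) (c j) (F j) (hF j)

lemma acc_fam {S : Set (X → ℂ)} (h0 : (0 : X → ℂ) ∈ S) {J J' : Type} [Fintype J] [Fintype J']
    (A : J → K → K → ZMod 2) (F0 : J → X → (Λ × K → ZMod 2) → ℂ) (c : J → J' → ℂ)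
    (F : J → J' → X → (Λ × K → ZMod 2) → ℂ) (hF0 : ∀ j, avs (A j) (F0 j) ⊆ S)
    (hF : ∀ j i, c j i ≠ 0 → avs (A j) (F j i) ⊆ S) :
    Get S (Fintype.card J * ((Fintype.card J' + 1) * c2 K Λ))
      (⋃ j, avs (A j) fun x y => F0 j x y + ∑ i, c j i * F j i x y) := by
  have := lin_fam h0 A (fun j (i : Option J') => i.elim 1 (c j))
    (fun j (i : Option J') => i.elim (F0 j) (F j)) (fun j i hi => by
      cases i with
      | none => exact hF0 j
      | some i => exact hF j i hi)
  simpa [Fintype.sum_option] using this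

lemma acc1_fam {S : Set (X → ℂ)} (h0 : (0 : X → ℂ) ∈ S) {J : Type} [Fintype J]
    (A : J → K → K → ZMod 2) (F0 F : J → X → (Λ × K → ZMod 2) → ℂ) (c : ℂ)
    (hF0 : ∀ j, avs (A j) (F0 j) ⊆ S) (hF : ∀ j, avs (A j) (F j) ⊆ S) :
    Get S (Fintype.card J * (2 * c2 K Λ))
      (⋃ j, avs (A j) fun x y => F0 j x y + c * F j x y) := by
  have := acc_fam h0 A F0 (fun _ (_ : Unit) => c) (fun j _ => F j) hF0 fun j _ _ => hF j
  simpa [one_add_one_eq_two] using this

/-- the teleporting addition `y += ε x` -/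
theorem gadget {s : ℝ} (hs : Cost s (Etr Λ)) {S : Set (X → ℂ)} (h0 : (0 : X → ℂ) ∈ S)
    {I H Z : Type} [Fintype I] [DecidableEq I] [Fintype H] [Fintype Z]
    (src tgt : H → I) (a b : Z → I → ℂ) (μ : H → ℂ) (ε : ℂ)
    (hid : ∀ i j, ∑ k, b k j * a k i =
      ∑ h, (if tgt h = j ∧ src h = i then μ h else 0) + if i = j then ε else 0)
    (O P : K → K → ZMod 2) (p : I → K → K → ZMod 2)
    (n1 : ∀ i, Near 1 (p i)) (n99 : ∀ i, Near 99 (P + p i))
    (n98 : ∀ h, Near 98 (P + p (src h) + p (tgt h))) (n100 : Near 100 P)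
    (x y : I → X → (Λ × K → ZMod 2) → ℂ) (w : H → X → (Λ × K → ZMod 2) → ℂ)
    (hx : ∀ i, avs (O + p i) (x i) ⊆ S) (hy : ∀ i, avs O (y i) ⊆ S)
    (hw : ∀ h, avs O (w h) ⊆ S) :
    Get S ((198 * Fintype.card I + 100 * Fintype.card H + 100 * Fintype.card Z) * c1 K Λ s +
        (Fintype.card I * (2 * Fintype.card H + 2 * Fintype.card Z + 3) + 4 * Fintype.card H) *
          c2 K Λ)
      ((⋃ i, avs (O + P) (x i)) ∪ (⋃ i, avs (O + P + p i) fun q g => y i q g + ε * x i q g) ∪
        ⋃ h, avs (O + P) (w h)) := by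
  have hO := loc_add_self O
  have hP := loc_add_self P
  refine Get.le ((acc_fam h0 (fun _ => O) y (fun j h => if tgt h = j then μ h else 0)
    (fun _ h => w h) hy fun _ h _ => hw h).bind fun S1 s1 y1 =>
    (move_fam hs (s1 h0) (fun _ => O) (fun h => O + p (src h)) w
      (fun h => (hw h).trans s1) 1 fun h => (n1 (src h)).congr (by linear_combination hO)).bind
      fun S2 s2 w0 =>
    (acc1_fam (s2 (s1 h0)) (fun h => O + p (src h)) w (fun h => x (src h)) 1
      (Set.iUnion_subset_iff.1 w0) fun h => ((hx _).trans s1).trans s2).bind fun S3 s3 w1 =>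
    (move_fam hs (s3 (s2 (s1 h0))) (fun i => O + p i) (fun _ => O + P) x
      (fun i => (((hx i).trans s1).trans s2).trans s3) 99
      fun i => (n99 i).congr (by linear_combination hO)).bind fun S4 s4 x1 =>
    (lin_fam (s4 (s3 (s2 (s1 h0)))) (fun _ => O + P) a (fun _ i => x i)
      fun _ i _ => Set.iUnion_subset_iff.1 x1 i).bind fun S5 s5 z0 =>
    (move_fam hs (s5 (s4 (s3 (s2 (s1 h0))))) (fun _ => O + P) (fun _ => O) _
      (Set.iUnion_subset_iff.1 z0) 100 fun _ => n100.congr (by linear_combination hO)).bind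
      fun S6 s6 z1 =>
    (acc_fam (s6 (s5 (s4 (s3 (s2 (s1 h0)))))) (fun _ => O) _ (fun j k => b k j) (fun _ k => _)
      (fun i => (Set.iUnion_subset_iff.1 y1 i).trans
        (s2.trans (s3.trans (s4.trans (s5.trans s6)))))
      fun _ k _ => Set.iUnion_subset_iff.1 z1 k).bind fun S7 s7 y2 =>
    (move_fam hs (s7 (s6 (s5 (s4 (s3 (s2 (s1 h0))))))) (fun _ => O) (fun i => O + P + p i) _
      (Set.iUnion_subset_iff.1 y2) 99
      fun i => (n99 i).congr (by linear_combination hO)).bind fun S8 s8 y3 =>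
    (move_fam hs (s8 (s7 (s6 (s5 (s4 (s3 (s2 (s1 h0)))))))) (fun h => O + p (src h))
      (fun h => O + P + p (tgt h)) _
      (fun h => (Set.iUnion_subset_iff.1 w1 h).trans
        (s4.trans (s5.trans (s6.trans (s7.trans s8))))) 98
      fun h => (n98 h).congr (by linear_combination hO)).bind fun S9 s9 w2 =>
    (acc_fam (s9 (s8 (s7 (s6 (s5 (s4 (s3 (s2 (s1 h0))))))))) (fun i => O + P + p i) _
      (fun j h => if tgt h = j then -μ h else 0) (fun _ h => _)
      (fun i => (Set.iUnion_subset_iff.1 y3 i).trans s9)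
      fun j h hc => by
        have : tgt h = j := by by_contra hne; exact hc (if_neg hne)
        exact this ▸ Set.iUnion_subset_iff.1 w2 h).bind fun S10 s10 y4 =>
    (move_fam hs (s10 (s9 (s8 (s7 (s6 (s5 (s4 (s3 (s2 (s1 h0))))))))))
      (fun h => O + P + p (tgt h)) (fun _ => O + P) _
      (fun h => (Set.iUnion_subset_iff.1 w2 h).trans s10) 1
      fun h => (n1 (tgt h)).congr (by linear_combination hO + hP)).bind fun S11 s11 w3 =>
    ((acc1_fam (s11 (s10 (s9 (s8 (s7 (s6 (s5 (s4 (s3 (s2 (s1 h0))))))))))) (fun _ => O + P) _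
      (fun h => x (src h)) (-1) (Set.iUnion_subset_iff.1 w3)
      fun h => (Set.iUnion_subset_iff.1 x1 _).trans
        (s5.trans (s6.trans (s7.trans (s8.trans (s9.trans (s10.trans s11))))))).keep).mono
      le_rfl ?_) (le_of_eq (by push_cast; ring))
  refine Set.union_subset (Set.union_subset ?_ ?_) ?_
  · exact (x1.trans (s5.trans (s6.trans (s7.trans (s8.trans (s9.trans
      (s10.trans s11))))))).trans Set.subset_union_left
  · refine Set.Subset.trans (le_of_eq ?_) ((y4.trans s11).trans Set.subset_union_left)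
    refine Set.iUnion_congr fun j => ?_
    congr 1
    funext q g
    have e1 : ∑ k, b k j * ∑ i, a k i * x i q g =
        ∑ h, (if tgt h = j then μ h else 0) * x (src h) q g + ε * x j q g := by
      simp only [Finset.mul_sum, ← mul_assoc]
      rw [Finset.sum_comm]
      simp only [← Finset.sum_mul, hid, add_mul, Finset.sum_add_distrib]
      congr 1
      · simp only [Finset.sum_mul]
        rw [Finset.sum_comm]
        refine Finset.sum_congr rfl fun h _ => ?_
        by_cases ht : tgt h = j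
        · simp [ht]
        · simp [ht]
      · simp
    have e2 : ∑ h, (if tgt h = j then -μ h else 0) * (w h q g + 1 * x (src h) q g) =
        -∑ h, (if tgt h = j then μ h else 0) * w h q g -
          ∑ h, (if tgt h = j then μ h else 0) * x (src h) q g := by
      rw [← Finset.sum_neg_distrib, ← Finset.sum_sub_distrib]
      refine Finset.sum_congr rfl fun h _ => ?_
      split_ifs <;> ring
    rw [e1, e2]
    ring
  · refine Set.Subset.trans (le_of_eq ?_) Set.subset_union_right
    refine Set.iUnion_congr fun h => ?_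
    congr 1
    funext q g
    ring

end

end Crest.Agent.R324
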