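import Mathlib
import Crest.Agent.R324.Gadget

set_option autoImplicit false

namespace Crest.Agent.R324

open Finset

/-- the coordinates -/
abbrev K3 : Type := Fin 100 × Fin 100 × Fin 100

/-- triple Kronecker product -/
def k3 (A B C : Fin 100 → Fin 100 → ZMod 2) : K3 → K3 → ZMod 2 := kron A (kron B C)

lemma Near.k3 {a b c : ℕ} {A B C : Fin 100 → Fin 100 → ZMod 2} (hA : Near a A) (hB : Near b B)
    (hC : Near c C) : Near (a * (b * c)) (k3 A B C) := hA.kron (hB.kron hC)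

/-- identity form on `Fin 100` -/
abbrev JJ : Fin 100 → Fin 100 → ZMod 2 := idm (Fin 100)

/-- projection onto a triple -/
abbrev pp (S : Tr) : Fin 100 → Fin 100 → ZMod 2 := rk1 (tv S)

lemma idm_K3 : idm K3 = k3 JJ JJ JJ := by
  unfold k3; rw [kron_idm, kron_idm]

lemma near_J : Near 100 JJ := by simpa using Near.idm (K := Fin 100)

lemma near_p (S : Tr) : Near 1 (pp S) := Near.rk1 _

/-- identities between Kronecker products in characteristic two -/
macro "k3_id" : tactic => `(tactic| (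
  funext a b
  simp only [idm_K3, k3, kron, Pi.add_apply]
  rw [← sub_eq_zero]
  ring_nf
  try reduce_mod_char))

variable {Λ : Type} [Fintype Λ] [DecidableEq Λ] {X : Type}

/-- cost in local operations of one gadget -/
noncomputable def gops : ℝ :=
  Fintype.card Tr * (2 * Fintype.card Hp + 2 * 100 + 3) + 4 * Fintype.card Hp

lemma stage {s : ℝ} (hs : Cost s (Etr Λ)) {S : Set (X → ℂ)} (h0 : (0 : X → ℂ) ∈ S) (ε : ℂ)
    (O P : Tr × Tr → K3 → K3 → ZMod 2) (p : Tr × Tr → Tr → K3 → K3 → ZMod 2)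
    (n1 : ∀ f i, Near 1 (p f i)) (n99 : ∀ f i, Near 99 (P f + p f i))
    (n98 : ∀ f (h : Hp), Near 98 (P f + p f h.1.1 + p f h.1.2)) (n100 : ∀ f, Near 100 (P f))
    (nr : ∀ f, Near 999900 (P f + idm K3))
    (x y : Tr × Tr → Tr → X → (Λ × K3 → ZMod 2) → ℂ)
    (w : (Tr × Tr) × Hp → X → (Λ × K3 → ZMod 2) → ℂ)
    (hx : ∀ f i, avs (O f + p f i) (x f i) ⊆ S) (hy : ∀ f i, avs (O f) (y f i) ⊆ S)
    (hw : ∀ h, avs (O h.1) (w h) ⊆ S) :
    Get S ((Fintype.card Tr : ℝ) ^ 2 *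
        ((198 * Fintype.card Tr + 10 ^ 6 * Fintype.card Hp + 10 ^ 4) * c1 K3 Λ s +
          gops * c2 K3 Λ))
      ((⋃ f, ⋃ i, avs (O f + P f) (x f i)) ∪
        (⋃ f, ⋃ i, avs (O f + P f + p f i) fun q g => y f i q g + ε * x f i q g) ∪
        ⋃ h : (Tr × Tr) × Hp, avs (O h.1 + idm K3) (w h)) := by
  have h1 := Get.iUnion_const fun f : Tr × Tr =>
    gadget hs h0 (fun h : Hp => h.1.1) (fun h => h.1.2)
      (fun (k : Fin 100) (S : Tr) => if k ∈ S.1 then 1 else 0)
      (fun k T => ε * ((if k ∈ T.1 then 1 else 0) - 1 / 3) / 2)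
      (fun h => ε * ((#(h.1.1.1 ∩ h.1.2.1) : ℂ) - 1) / 2) ε (coeff_identity ε) (O f) (P f) (p f)
      (n1 f) (n99 f) (n98 f) (n100 f) (x f) (y f) (fun h => w (f, h)) (hx f) (hy f)
      (fun h => hw (f, h))
  refine (h1.bind fun T hT hU => ((move_fam hs (hT h0) (fun h : (Tr × Tr) × Hp => O h.1 + P h.1)
    (fun h => O h.1 + idm K3) w (fun h => ?_) 999900 fun h => (nr h.1).congr
      (by linear_combination loc_add_self (O h.1))).keep).mono le_rfl ?_).le (le_of_eq ?_)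
  · refine Set.Subset.trans ?_ (Set.iUnion_subset_iff.1 hU h.1)
    exact (Set.subset_iUnion (fun h' : Hp => avs (O h.1 + P h.1) (w (h.1, h'))) h.2).trans
      Set.subset_union_right
  · refine Set.union_subset (Set.union_subset ?_ ?_) Set.subset_union_right
    · refine Set.Subset.trans (Set.iUnion_subset fun f => ?_) Set.subset_union_left
      exact (Set.subset_union_left.trans Set.subset_union_left).trans
        (Set.iUnion_subset_iff.1 hU f)
    · refine Set.Subset.trans (Set.iUnion_subset fun f => ?_) Set.subset_union_left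
      exact (Set.subset_union_right.trans Set.subset_union_left).trans
        (Set.iUnion_subset_iff.1 hU f)
  · simp only [Fintype.card_prod, Fintype.card_fin, gops]
    push_cast
    ring

/-- the commodities -/
abbrev Com : Type := (Tr × Tr × Tr) ⊕ (Tr × Tr × Tr) ⊕
  ((Tr × Tr) × Hp) ⊕ ((Tr × Tr) × Hp) ⊕ ((Tr × Tr) × Hp)

/-- first offset -/
def O1 (f : Tr × Tr) : K3 → K3 → ZMod 2 := k3 JJ JJ (JJ + pp f.2) + k3 JJ (pp f.1) (pp f.2)
/-- second offset -/
def O2 (f : Tr × Tr) : K3 → K3 → ZMod 2 := k3 JJ JJ (JJ + pp f.2)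
/-- third offset -/
def O3 (f : Tr × Tr) : K3 → K3 → ZMod 2 := k3 (pp f.1) JJ JJ

/-- the sources -/
def srcL : Com → K3 → K3 → ZMod 2
  | .inl t => O1 t.2 + k3 (pp t.1) (pp t.2.1) (pp t.2.2)
  | .inr (.inl t) => O1 t.2
  | .inr (.inr (.inl h)) => O1 h.1
  | .inr (.inr (.inr (.inl h))) => O2 h.1
  | .inr (.inr (.inr (.inr h))) => O3 h.1

lemma srcL_ref (i : Com) : ∃ φ, Ref φ (srcL i) := by
  have h2 : ∀ f, Near _ (O2 f) := fun f => near_J.k3 near_J (near_q f.2)
  have h1 : ∀ f, Near _ (O1 f) := fun f => (h2 f).add (near_J.k3 (near_p f.1) (near_p f.2))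
  have h3 : ∀ f, Near _ (O3 f) := fun f => (near_p f.1).k3 near_J near_J
  rcases i with t | t | h | h | h
  · exact ((h1 _).add ((near_p _).k3 (near_p _) (near_p _))).exists_ref
  · exact (h1 _).exists_ref
  · exact (h1 _).exists_ref
  · exact (h2 _).exists_ref
  · exact (h3 _).exists_ref

theorem net {s : ℝ} (hs : Cost s (Etr Λ)) {S : Set (X → ℂ)} (h0 : (0 : X → ℂ) ∈ S)
    (F : Com → X → (Λ × K3 → ZMod 2) → ℂ) (hF : ∀ i, avs (srcL i) (F i) ⊆ S) :
    Get S ((10 ^ 6 * Fintype.card Com -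
        (Fintype.card Tr : ℝ) ^ 2 * (2 * Fintype.card Tr - 30000)) * c1 K3 Λ s +
        (3 * (Fintype.card Tr : ℝ) ^ 2 * gops + (Fintype.card Tr : ℝ) ^ 3) * c2 K3 Λ)
      (⋃ i, avs (srcL i + idm K3) (F i)) := by
  obtain ⟨x, hx⟩ : ∃ x : Tr × Tr × Tr → X → (Λ × K3 → ZMod 2) → ℂ, ∀ t, x t = F (.inl t) :=
    ⟨_, fun _ => rfl⟩
  obtain ⟨y, hy⟩ : ∃ y : Tr × Tr × Tr → X → (Λ × K3 → ZMod 2) → ℂ,
    ∀ t, y t = F (.inr (.inl t)) := ⟨_, fun _ => rfl⟩
  have st1 := stage hs h0 1 O1 (fun f => k3 JJ (pp f.1) (pp f.2))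
    (fun f i => k3 (pp i) (pp f.1) (pp f.2))
    (fun f i => (near_p _).k3 (near_p _) (near_p _))
    (fun f i => ((near_q i).k3 (near_p f.1) (near_p f.2)).congr (by k3_id))
    (fun f h => ((near_qq _ _ h.2).k3 (near_p f.1) (near_p f.2)).congr (by k3_id))
    (fun f => near_J.k3 (near_p _) (near_p _))
    (fun f => ((near_J.k3 (near_q f.1) near_J).add (near_J.k3 (near_p f.1) (near_q f.2))).congr
      (by k3_id))
    (fun f i => x (i, f)) (fun f i => y (i, f)) (fun h => F (.inr (.inr (.inl h))))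
    (fun f i => hx _ ▸ hF (.inl (i, f))) (fun f i => hy _ ▸ hF (.inr (.inl (i, f))))
    (fun h => hF (.inr (.inr (.inl h))))
  refine Get.le (st1.bind fun S1 s1 u1 => ?_)
    (s := _ + ((Fintype.card Tr : ℝ) ^ 2 *
        ((198 * Fintype.card Tr + 10 ^ 6 * Fintype.card Hp + 10 ^ 4) * c1 K3 Λ s +
          gops * c2 K3 Λ) + (Fintype.card (Tr × Tr × Tr) * ((980100 : ℕ) * c1 K3 Λ s) +
      (Fintype.card (Tr × Tr × Tr) * ((980100 : ℕ) * c1 K3 Λ s) +
      ((Fintype.card Tr : ℝ) ^ 2 *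
        ((198 * Fintype.card Tr + 10 ^ 6 * Fintype.card Hp + 10 ^ 4) * c1 K3 Λ s +
          gops * c2 K3 Λ) + (Fintype.card (Tr × Tr × Tr) * ((19602 : ℕ) * c1 K3 Λ s) +
      (Fintype.card (Tr × Tr × Tr) * ((19602 : ℕ) * c1 K3 Λ s) +
        Fintype.card (Tr × Tr × Tr) * (Fintype.card Unit * c2 K3 Λ))))))))
    (le_of_eq (by simp only [Fintype.card_sum, Fintype.card_prod, Fintype.card_unit]
                  push_cast; ring))
  rw [Set.union_subset_iff, Set.union_subset_iff] at u1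
  obtain ⟨⟨x1, y1⟩, w1⟩ := u1
  simp only [Set.iUnion_subset_iff] at x1 y1 w1
  have st2 := stage hs (s1 h0) (-1) O2 (fun f => k3 (pp f.1) JJ (pp f.2))
    (fun f i => k3 (pp f.1) (pp i) (pp f.2))
    (fun f i => (near_p _).k3 (near_p _) (near_p _))
    (fun f i => ((near_p f.1).k3 (near_q i) (near_p f.2)).congr (by k3_id))
    (fun f h => ((near_p f.1).k3 (near_qq _ _ h.2) (near_p f.2)).congr (by k3_id))
    (fun f => (near_p _).k3 near_J (near_p _))
    (fun f => (((near_q f.1).k3 near_J near_J).add ((near_p f.1).k3 near_J (near_q f.2))).congr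
      (by k3_id))
    (fun f i q g => y (f.1, i, f.2) q g + 1 * x (f.1, i, f.2) q g) (fun f i => x (f.1, i, f.2))
    (fun h => F (.inr (.inr (.inr (.inl h)))))
    (fun f i => by convert y1 (i, f.2) f.1 using 2; unfold O1 O2; k3_id)
    (fun f i => by convert x1 (i, f.2) f.1 using 2; unfold O1 O2; k3_id)
    (fun h => (hF (.inr (.inr (.inr (.inl h))))).trans s1)
  refine st2.bind fun S2 s2 u2 => ?_
  rw [Set.union_subset_iff, Set.union_subset_iff] at u2
  obtain ⟨⟨y2, x2⟩, w2⟩ := u2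
  simp only [Set.iUnion_subset_iff] at x2 y2 w2
  refine (move_fam hs (s2 (s1 h0)) _ (fun t : Tr × Tr × Tr => O3 (t.1, t.2.1)) _
    (fun t => y2 (t.1, t.2.2) t.2.1) 980100 fun t =>
      ((near_q t.1).k3 near_J (near_q t.2.2)).congr (by unfold O2 O3; k3_id)).bind
    fun S3 s3 y3 => ?_
  refine (move_fam hs (s3 (s2 (s1 h0))) _
    (fun t : Tr × Tr × Tr => O3 (t.1, t.2.1) + k3 (pp t.1) (pp t.2.1) (pp t.2.2)) _
    (fun t => (x2 (t.1, t.2.2) t.2.1).trans s3) 980100 fun t =>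
      ((near_q t.1).k3 near_J (near_q t.2.2)).congr (by unfold O2 O3; k3_id)).bind
    fun S4 s4 x3 => ?_
  simp only [Set.iUnion_subset_iff] at x3 y3
  have st3 := stage hs (s4 (s3 (s2 (s1 h0)))) 1 O3 (fun f => k3 (pp f.1) (pp f.2) JJ)
    (fun f i => k3 (pp f.1) (pp f.2) (pp i))
    (fun f i => (near_p _).k3 (near_p _) (near_p _))
    (fun f i => ((near_p f.1).k3 (near_p f.2) (near_q i)).congr (by k3_id))
    (fun f h => ((near_p f.1).k3 (near_p f.2) (near_qq _ _ h.2)).congr (by k3_id))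
    (fun f => (near_p _).k3 (near_p _) near_J)
    (fun f => (((near_q f.1).k3 near_J near_J).add ((near_p f.1).k3 (near_q f.2) near_J)).congr
      (by k3_id))
    _ _ (fun h => F (.inr (.inr (.inr (.inr h)))))
    (fun f i => x3 (f.1, f.2, i)) (fun f i => (y3 (f.1, f.2, i)).trans s4)
    (fun h => (hF (.inr (.inr (.inr (.inr h))))).trans (s1.trans (s2.trans (s3.trans s4))))
  refine st3.bind fun S5 s5 u3 => ?_
  rw [Set.union_subset_iff, Set.union_subset_iff] at u3
  obtain ⟨⟨x4, y4⟩, w3⟩ := u3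
  simp only [Set.iUnion_subset_iff] at x4 y4 w3
  have nQ : ∀ t : Tr × Tr × Tr, Near 19602 (k3 (JJ + pp t.1) (JJ + pp t.2.1) (pp t.2.2) +
      k3 (pp t.1) (JJ + pp t.2.1) (JJ + pp t.2.2)) := fun t =>
    ((near_q t.1).k3 (near_q t.2.1) (near_p t.2.2)).add
      ((near_p t.1).k3 (near_q t.2.1) (near_q t.2.2))
  refine (move_fam hs (s5 (s4 (s3 (s2 (s1 h0))))) _
    (fun t : Tr × Tr × Tr => srcL (.inl t) + idm K3) _
    (fun t => y4 (t.1, t.2.1) t.2.2) 19602 fun t =>
      (nQ t).congr (by simp only [srcL, O1, O3]; k3_id)).bind fun S6 s6 y5 => ?_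
  refine (move_fam hs (s6 (s5 (s4 (s3 (s2 (s1 h0)))))) _
    (fun t : Tr × Tr × Tr => srcL (.inr (.inl t)) + idm K3) _
    (fun t => (x4 (t.1, t.2.1) t.2.2).trans s6) 19602 fun t =>
      (nQ t).congr (by simp only [srcL, O1, O3]; k3_id)).bind fun S7 s7 x5 => ?_
  simp only [Set.iUnion_subset_iff] at x5 y5
  refine (lin_fam (s7 (s6 (s5 (s4 (s3 (s2 (s1 h0)))))))
    (fun t : Tr × Tr × Tr => srcL (.inr (.inl t)) + idm K3) (fun _ (_ : Unit) => -1)
    (fun t _ => _) fun t _ _ => x5 t).keep.mono le_rfl (Set.iUnion_subset fun i => ?_)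
  rcases i with t | t | h | h | h
  · refine Set.Subset.trans (le_of_eq ?_) (((y5 t).trans s7).trans Set.subset_union_left)
    congr 1
    funext q g
    rw [← hx]
    ring
  · refine Set.Subset.trans (Set.subset_iUnion_of_subset t (le_of_eq ?_)) Set.subset_union_right
    congr 1
    funext q g
    rw [← hy]
    simp
  · exact ((w1 h).trans (s2.trans (s3.trans (s4.trans (s5.trans (s6.trans s7)))))).trans
      Set.subset_union_left
  · exact ((w2 h).trans (s3.trans (s4.trans (s5.trans (s6.trans s7))))).trans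
      Set.subset_union_left
  · exact ((w3 h).trans (s6.trans s7)).trans Set.subset_union_left

end Crest.Agent.R324
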