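import Mathlib

set_option autoImplicit false

namespace Crest.Agent.R324

open Finset

/-- a gather layer: every coordinate is a scalar multiple of some old coordinate -/
def IsG {ι : Type} (f : (ι → ℂ) → ι → ℂ) : Prop :=
  ∃ (c : ι → ℂ) (π : ι → ι), ∀ x a, f x a = c a * x (π a)

open Classical in
/-- a shear layer: `x a += x (σ a)` for `a ∈ T`, along a partial matching -/
def IsS {ι : Type} (f : (ι → ℂ) → ι → ℂ) : Prop :=
  ∃ (T : Set ι) (σ : ι → ι), Set.InjOn σ T ∧ (∀ a ∈ T, σ a ∉ T) ∧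
    ∀ x a, f x a = x a + (if a ∈ T then x (σ a) else 0)

/-- in-place circuits with `D` shear layers -/
inductive Dep {ι : Type} : ℕ → ((ι → ℂ) → ι → ℂ) → Prop
  | zero (f : (ι → ℂ) → ι → ℂ) : IsG f → Dep 0 f
  | succ (D : ℕ) (f s g : (ι → ℂ) → ι → ℂ) :
      Dep D f → IsS s → IsG g → Dep (D + 1) (fun x => g (s (f x)))

section
variable {ι : Type}

lemma IsG.id : IsG (fun x : ι → ℂ => x) := ⟨fun _ => 1, fun a => a, fun x a => by simp⟩

lemma IsS.id : IsS (fun x : ι → ℂ => x) :=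
  ⟨∅, fun a => a, by simp, by simp, fun x a => by simp⟩

lemma IsG.comp {f g : (ι → ℂ) → ι → ℂ} (hf : IsG f) (hg : IsG g) : IsG (fun x => g (f x)) := by
  obtain ⟨c, π, h⟩ := hf
  obtain ⟨c', π', h'⟩ := hg
  exact ⟨fun a => c' a * c (π' a), fun a => π (π' a), fun x a => by simp only [h', h, mul_assoc]⟩

lemma Dep.congr {D : ℕ} {f f' : (ι → ℂ) → ι → ℂ} (h : Dep D f) (hf : ∀ x a, f' x a = f x a) :
    Dep D f' := by
  have : f' = f := by funext x a; exact hf x a
  rwa [this]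

lemma Dep.then_G {D : ℕ} {f g : (ι → ℂ) → ι → ℂ} (hf : Dep D f) (hg : IsG g) :
    Dep D (fun x => g (f x)) := by
  cases hf with
  | zero _ h => exact Dep.zero _ (h.comp hg)
  | succ D f s g' h1 h2 h3 => exact Dep.succ D f s (fun x => g (g' x)) h1 h2 (h3.comp hg)

/-- sequential composition: first `f`, then `g` -/
lemma Dep.comp {D D' : ℕ} {f g : (ι → ℂ) → ι → ℂ} (hf : Dep D f) (hg : Dep D' g) :
    Dep (D + D') (fun x => g (f x)) := by
  induction hg with
  | zero g h => exact hf.then_G h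
  | succ D' g s g' _ h2 h3 ih => exact Dep.succ (D + D') _ s g' ih h2 h3

lemma Dep.id (D : ℕ) : Dep D (fun x : ι → ℂ => x) := by
  induction D with
  | zero => exact Dep.zero _ IsG.id
  | succ D ih => exact Dep.succ D _ _ _ ih IsS.id IsG.id

lemma Dep.mono {D D' : ℕ} {f : (ι → ℂ) → ι → ℂ} (hf : Dep D f) (h : D ≤ D') : Dep D' f := by
  obtain ⟨k, rfl⟩ := Nat.exists_eq_add_of_le h
  exact hf.comp (Dep.id k)

lemma Dep.gather (c : ι → ℂ) (π : ι → ι) : Dep 0 (fun (x : ι → ℂ) a => c a * x (π a)) :=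
  Dep.zero _ ⟨c, π, fun _ _ => rfl⟩

open Classical in
/-- a shear with coefficients -/
lemma Dep.shear (T : Set ι) (σ : ι → ι) (hσ : Set.InjOn σ T) (hT : ∀ a ∈ T, σ a ∉ T)
    (c : ι → ℂ) : Dep 1 (fun (x : ι → ℂ) a => x a + if a ∈ T then c a * x (σ a) else 0) := by
  let T' : Set ι := {a | a ∈ T ∧ c a ≠ 0}
  have h := Dep.succ 0 _ (fun (x : ι → ℂ) a => x a + if a ∈ T' then x (σ a) else 0)
    (fun (x : ι → ℂ) a => (if a ∈ T' then c a else 1) * x a)
    (Dep.gather (fun a => if a ∈ T' then (c a)⁻¹ else 1) (fun a => a))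
    ⟨T', σ, hσ.mono fun a ha => ha.1, fun a ha h => hT a ha.1 h.1, fun x a => by
      by_cases h : a ∈ T' <;> simp [h]⟩
    ⟨_, fun a => a, fun _ _ => rfl⟩
  refine h.congr fun x a => ?_
  by_cases ha : a ∈ T'
  · have h1 : σ a ∉ T' := fun h => hT a ha.1 h.1
    have h2 := ha.2
    simp only [if_pos ha, if_neg h1, if_pos ha.1]
    field_simp
  · simp only [if_neg ha]
    by_cases h1 : a ∈ T
    · have : c a = 0 := by by_contra h; exact ha ⟨h1, h⟩
      simp [this]
    · simp [h1]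

/-- apply `f a` on the block `e (a, ·)`, for all `a` in parallel -/
noncomputable def par {A κ : Type} (e : A × κ → ι) (f : A → (κ → ℂ) → κ → ℂ) (x : ι → ℂ) :
    ι → ℂ :=
  Function.extend e (fun q => f q.1 (fun k => x (e (q.1, k))) q.2) x

lemma par_apply {A κ : Type} {e : A × κ → ι} (he : Function.Injective e)
    (f : A → (κ → ℂ) → κ → ℂ) (x : ι → ℂ) (a : A) (k : κ) :
    par e f x (e (a, k)) = f a (fun k => x (e (a, k))) k := by
  unfold par; rw [he.extend_apply]

lemma par_apply_of_notMem {A κ : Type} (e : A × κ → ι)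
    (f : A → (κ → ℂ) → κ → ℂ) (x : ι → ℂ) (i : ι) (hi : ¬ ∃ q, e q = i) :
    par e f x i = x i := by
  unfold par; rw [Function.extend_apply' _ _ _ hi]

lemma IsG.par {A κ : Type} {e : A × κ → ι} (he : Function.Injective e)
    {f : A → (κ → ℂ) → κ → ℂ} (hf : ∀ a, IsG (f a)) : IsG (par e f) := by
  choose c π h using hf
  refine ⟨Function.extend e (fun q => c q.1 q.2) (fun _ => 1),
    Function.extend e (fun q => e (q.1, π q.1 q.2)) (fun i => i), fun x i => ?_⟩
  by_cases hi : ∃ q, e q = i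
  · obtain ⟨⟨a, k⟩, rfl⟩ := hi
    rw [par_apply he, he.extend_apply, he.extend_apply, h]
  · rw [par_apply_of_notMem _ _ _ _ hi, Function.extend_apply' _ _ _ hi,
      Function.extend_apply' _ _ _ hi, one_mul]

lemma IsS.par {A κ : Type} {e : A × κ → ι} (he : Function.Injective e)
    {f : A → (κ → ℂ) → κ → ℂ} (hf : ∀ a, IsS (f a)) : IsS (par e f) := by
  classical
  choose T σ h1 h2 h3 using hf
  have hmem : ∀ a k, e (a, k) ∈ (e '' {q | q.2 ∈ T q.1}) ↔ k ∈ T a := fun a k =>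
    he.mem_set_image
  refine ⟨e '' {q | q.2 ∈ T q.1},
    Function.extend e (fun q => e (q.1, σ q.1 q.2)) (fun i => i), ?_, ?_, fun x i => ?_⟩
  · rintro _ ⟨⟨a, k⟩, hk, rfl⟩ _ ⟨⟨a', k'⟩, hk', rfl⟩ h
    rw [he.extend_apply, he.extend_apply] at h
    have h := he h
    simp only [Prod.mk.injEq] at h
    obtain ⟨rfl, h⟩ := h
    have : k = k' := h1 a hk hk' h
    rw [this]
  · rintro _ ⟨⟨a, k⟩, hk, rfl⟩
    rw [he.extend_apply, hmem]
    exact h2 a k hk
  · by_cases hi : ∃ q, e q = i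
    · obtain ⟨⟨a, k⟩, rfl⟩ := hi
      rw [par_apply he, he.extend_apply, h3]
      simp only [hmem]
    · rw [par_apply_of_notMem _ _ _ _ hi, if_neg, add_zero]
      rintro ⟨q, _, hq⟩
      exact hi ⟨q, hq⟩

/-- parallel composition on disjoint blocks -/
lemma Dep.par {A κ : Type} {e : A × κ → ι} (he : Function.Injective e) (D : ℕ)
    {f : A → (κ → ℂ) → κ → ℂ} (hf : ∀ a, Dep D (f a)) : Dep D (par e f) := by
  induction D generalizing f with
  | zero =>
    refine Dep.zero _ (IsG.par he fun a => ?_)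
    have := hf a
    generalize f a = g at this
    cases this with
    | zero _ h => exact h
  | succ D ih =>
    have : ∀ a, ∃ f' s g : (κ → ℂ) → κ → ℂ, Dep D f' ∧ IsS s ∧ IsG g ∧
        f a = fun x => g (s (f' x)) := by
      intro a
      have := hf a
      generalize f a = g at this
      cases this with
      | succ _ f' s g h1 h2 h3 => exact ⟨f', s, g, h1, h2, h3, rfl⟩
    choose f' s g h1 h2 h3 h4 using this
    refine (Dep.succ D _ _ _ (ih h1) (IsS.par he h2) (IsG.par he h3)).congr fun x i => ?_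
    by_cases hi : ∃ q, e q = i
    · obtain ⟨⟨a, k⟩, rfl⟩ := hi
      simp only [par_apply he, h4]
    · simp only [par_apply_of_notMem _ _ _ _ hi]

/-- characterisation form of `Dep.par` -/
lemma Dep.of_blocks {A κ : Type} {e : A × κ → ι} (he : Function.Injective e) (D : ℕ)
    {f : A → (κ → ℂ) → κ → ℂ} (hf : ∀ a, Dep D (f a)) (F : (ι → ℂ) → ι → ℂ)
    (h1 : ∀ x a k, F x (e (a, k)) = f a (fun k => x (e (a, k))) k)
    (h2 : ∀ x i, (¬ ∃ q, e q = i) → F x i = x i) : Dep D F := by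
  refine (Dep.par he D hf).congr fun x i => ?_
  by_cases hi : ∃ q, e q = i
  · obtain ⟨⟨a, k⟩, rfl⟩ := hi
    rw [par_apply he, h1]
  · rw [par_apply_of_notMem _ _ _ _ hi, h2 x i hi]

/-- acting on one block -/
lemma Dep.of_block {κ : Type} {e : κ → ι} (he : Function.Injective e) {D : ℕ}
    {f : (κ → ℂ) → κ → ℂ} (hf : Dep D f) (F : (ι → ℂ) → ι → ℂ)
    (h1 : ∀ x k, F x (e k) = f (fun k => x (e k)) k)
    (h2 : ∀ x i, (¬ ∃ k, e k = i) → F x i = x i) : Dep D F :=
  Dep.of_blocks (A := Unit) (e := fun q => e q.2)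
    (fun _ _ h => Prod.ext rfl (he h)) D (f := fun _ => f) (fun _ => hf) F
    (fun x _ k => h1 x k) fun x i hi => h2 x i fun ⟨k, hk⟩ => hi ⟨((), k), hk⟩

/-- transport along an equivalence -/
lemma Dep.equiv {κ : Type} (e : κ ≃ ι) {D : ℕ} {f : (κ → ℂ) → κ → ℂ} (hf : Dep D f) :
    Dep D (fun (x : ι → ℂ) i => f (fun k => x (e k)) (e.symm i)) :=
  Dep.of_block e.injective hf _ (fun x k => by simp) fun x i hi => absurd ⟨_, e.apply_symm_apply i⟩ hi

end

/-- the discrete Fourier transform on `ZMod n` -/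
noncomputable def dft (n : ℕ) [NeZero n] (x : ZMod n → ℂ) (a : ZMod n) : ℂ :=
  ∑ b, ZMod.stdAddChar (a * b) * x b

/-- the multi-dimensional discrete Fourier transform -/
noncomputable def mdft {I : Type} [Fintype I] [DecidableEq I] (n : I → ℕ) [∀ i, NeZero (n i)]
    (u : (∀ i, ZMod (n i)) → ℂ) (g : ∀ i, ZMod (n i)) : ℂ :=
  ∑ h : ∀ i, ZMod (n i), (∏ i, ZMod.stdAddChar (g i * h i)) * u h

end Crest.Agent.R324
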