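import Mathlib
import Crest.Agent.R324.Dep

/-! Cooley–Tukey, radix two FFT and the convolution theorem. -/

set_option autoImplicit false

namespace Crest.Agent.R324

open Finset Complex

theorem dep_dft_cast {m n D : ℕ} [NeZero m] [NeZero n] (h : m = n) (hd : Dep D (dft m)) :
    Dep D (dft n) := by
  subst h; exact hd

theorem psi_val {n : ℕ} [NeZero n] (u v : ZMod n) :
    ZMod.stdAddChar (u * v) = exp (2 * Real.pi * I * ((u.val : ℂ) * v.val) / n) := by
  have := ZMod.stdAddChar_coe (N := n) ((u.val : ℤ) * v.val)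
  push_cast at this
  simpa using this

theorem psi_nat {n : ℕ} [NeZero n] (u v : ℕ) :
    ZMod.stdAddChar ((u : ZMod n) * (v : ZMod n)) = exp (2 * Real.pi * I * ((u : ℂ) * v) / n) := by
  have := ZMod.stdAddChar_coe (N := n) ((u : ℤ) * v)
  push_cast at this
  exact this

/-- mixed radix digits -/
noncomputable def digEquiv (a b : ℕ) [NeZero a] [NeZero b] : ZMod a × ZMod b ≃ ZMod (a * b) :=
  Equiv.ofBijective (fun q => ((b * q.1.val + q.2.val : ℕ) : ZMod (a * b))) (by
    rw [Fintype.bijective_iff_injective_and_card]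
    refine ⟨?_, by simp [ZMod.card]⟩
    rintro ⟨i, j⟩ ⟨i', j'⟩ h
    have hlt : ∀ (i : ZMod a) (j : ZMod b), b * i.val + j.val < a * b := by
      intro i j
      have h1 := i.val_lt
      have h2 := j.val_lt
      nlinarith
    have h1 := (ZMod.natCast_eq_natCast_iff' _ _ _).1 h
    rw [Nat.mod_eq_of_lt (hlt i j), Nat.mod_eq_of_lt (hlt i' j')] at h1
    have hb := NeZero.pos b
    have h2 : j.val = j'.val := by
      have := congrArg (· % b) h1
      simpa [Nat.mul_add_mod, Nat.mod_eq_of_lt j.val_lt, Nat.mod_eq_of_lt j'.val_lt] using this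
    have h3 : i.val = i'.val := by
      rw [h2] at h1
      exact Nat.eq_of_mul_eq_mul_left hb (Nat.add_right_cancel h1)
    exact Prod.ext (ZMod.val_injective _ h3) (ZMod.val_injective _ h2))

theorem digEquiv_apply (a b : ℕ) [NeZero a] [NeZero b] (q : ZMod a × ZMod b) :
    digEquiv a b q = ((b * q.1.val + q.2.val : ℕ) : ZMod (a * b)) := rfl

/-- mixed radix digits, other order -/
noncomputable def digEquiv' (a b : ℕ) [NeZero a] [NeZero b] : ZMod a × ZMod b ≃ ZMod (a * b) :=
  (Equiv.prodComm _ _).trans ((digEquiv b a).trans (ZMod.ringEquivCongr (mul_comm b a)).toEquiv)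

theorem digEquiv'_apply (a b : ℕ) [NeZero a] [NeZero b] (q : ZMod a × ZMod b) :
    digEquiv' a b q = ((a * q.2.val + q.1.val : ℕ) : ZMod (a * b)) :=
  map_natCast (ZMod.ringEquivCongr (mul_comm b a)) _

theorem cooley_tukey (a b : ℕ) [NeZero a] [NeZero b] {D₁ D₂ : ℕ}
    (h₁ : Dep D₁ (fun (x : ZMod a × ZMod b → ℂ) q => dft a (fun j => x (j, q.2)) q.1))
    (h₂ : Dep D₂ (fun (x : ZMod a × ZMod b → ℂ) q => dft b (fun j => x (q.1, j)) q.2)) :
    Dep (D₁ + D₂) (dft (a * b)) := by
  have h3 := ((((h₁.comp (Dep.gather (fun q : ZMod a × ZMod b =>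
    exp (2 * Real.pi * I * ((q.1.val : ℂ) * q.2.val) / (a * b))) (fun q => q))).comp h₂).equiv
    (digEquiv a b)).comp (Dep.gather (fun _ => 1)
      (fun i => digEquiv a b ((digEquiv' a b).symm i))))
  refine h3.congr (fun x k => ?_)
  obtain ⟨⟨k1, k2⟩, rfl⟩ := (digEquiv' a b).surjective k
  simp only [Equiv.symm_apply_apply, one_mul, dft]
  rw [← Equiv.sum_comp (digEquiv a b), Fintype.sum_prod_type, Finset.sum_comm]
  refine Finset.sum_congr rfl (fun j2 _ => ?_)
  rw [Finset.mul_sum, Finset.mul_sum]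
  refine Finset.sum_congr rfl (fun j1 _ => ?_)
  rw [← mul_assoc, ← mul_assoc]
  congr 1
  rw [digEquiv'_apply, digEquiv_apply, psi_nat, psi_val, psi_val, ← exp_add, ← exp_add,
    exp_eq_exp_iff_exists_int]
  refine ⟨k2.val * j1.val, ?_⟩
  have ha : (a : ℂ) ≠ 0 := by exact_mod_cast NeZero.ne a
  have hb : (b : ℂ) ≠ 0 := by exact_mod_cast NeZero.ne b
  push_cast
  field_simp
  ring

theorem Dep.along_fst {α β : Type} {D : ℕ} {f : (α → ℂ) → α → ℂ} (hf : Dep D f) :
    Dep D (fun (x : α × β → ℂ) q => f (fun j => x (j, q.2)) q.1) :=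
  Dep.of_blocks (A := β) (e := Prod.swap) Prod.swap_injective D (f := fun _ => f) (fun _ => hf) _
    (fun _ _ _ => rfl) (fun _ i hi => absurd ⟨i.swap, Prod.swap_swap i⟩ hi)

theorem Dep.along_snd {α β : Type} {D : ℕ} {f : (β → ℂ) → β → ℂ} (hf : Dep D f) :
    Dep D (fun (x : α × β → ℂ) q => f (fun j => x (q.1, j)) q.2) :=
  Dep.of_blocks (A := α) (e := fun q => q) (fun _ _ h => h) D (f := fun _ => f) (fun _ => hf) _
    (fun _ _ _ => rfl) (fun _ i hi => absurd ⟨i, rfl⟩ hi)

theorem dep_dft_two : Dep 2 (dft 2) := by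
  have h1 := Dep.shear (ι := ZMod 2) {0} (fun _ => 1) (by simp) (by simp) (fun _ => 1)
  have h2 := Dep.shear (ι := ZMod 2) {1} (fun _ => 0) (by simp) (by simp) (fun _ => 1)
  have h3 := Dep.gather (ι := ZMod 2) (fun a => if a = 1 then -2 else 1) (fun a => a)
  refine ((h1.comp h3).comp h2).congr (fun x a => ?_)
  have e1 : ZMod.stdAddChar (1 : ZMod 2) = -1 := by
    have := ZMod.stdAddChar_coe (N := 2) 1
    rw [Int.cast_one] at this
    rw [this, ← exp_pi_mul_I]
    congr 1; push_cast; ring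
  have e2 : ∀ f : ZMod 2 → ℂ, ∑ b, f b = f 0 + f 1 := fun f => Fin.sum_univ_two f
  have : a = 0 ∨ a = 1 := by revert a; decide
  rcases this with rfl | rfl
  · simp [dft, e2]
  · simp [dft, e2, e1]; ring

theorem dep_dft_two_pow' (e : ℕ) : Dep (2 * e) (dft (2 ^ e)) := by
  induction e with
  | zero =>
    refine dep_dft_cast (m := 1) rfl ((Dep.id 0).congr (fun x a => ?_))
    rw [dft, Fintype.sum_subsingleton _ a, Subsingleton.elim (a * a) 0]
    simp
  | succ e ih =>
    exact dep_dft_cast (pow_succ 2 e).symm (cooley_tukey (2 ^ e) 2 ih.along_fst dep_dft_two.along_snd)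

theorem sum_psi {n : ℕ} [NeZero n] (b : ZMod n) :
    ∑ x : ZMod n, ZMod.stdAddChar (x * b) = if b = 0 then (n : ℂ) else 0 := by
  rw [AddChar.sum_mulShift _ (ZMod.isPrimitive_stdAddChar n), ZMod.card]
  split_ifs <;> simp

/-- the inverse transform -/
noncomputable def idft (n : ℕ) [NeZero n] (x : ZMod n → ℂ) (a : ZMod n) : ℂ :=
  (n : ℂ)⁻¹ * dft n x (-a)

theorem dft_add (n : ℕ) [NeZero n] (x y : ZMod n → ℂ) : dft n (x + y) = dft n x + dft n y := by
  funext a; simp [dft, mul_add, Finset.sum_add_distrib]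

theorem idft_add (n : ℕ) [NeZero n] (x y : ZMod n → ℂ) : idft n (x + y) = idft n x + idft n y := by
  funext a; simp [idft, dft_add, mul_add]

theorem dft_neg (n : ℕ) [NeZero n] (x : ZMod n → ℂ) : dft n (-x) = -dft n x := by
  funext a; simp [dft]

theorem idft_neg (n : ℕ) [NeZero n] (x : ZMod n → ℂ) : idft n (-x) = -idft n x := by
  funext a; simp [idft, dft_neg]

theorem dft_dft (n : ℕ) [NeZero n] (x : ZMod n → ℂ) (a : ZMod n) :
    dft n (dft n x) a = n * x (-a) := by
  simp only [dft, Finset.mul_sum]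
  rw [Finset.sum_comm]
  have : ∀ c : ZMod n, ∑ b : ZMod n, ZMod.stdAddChar (a * b) * (ZMod.stdAddChar (b * c) * x c)
      = (if c = -a then (n : ℂ) else 0) * x c := by
    intro c
    simp only [← mul_assoc, ← AddChar.map_add_eq_mul]
    rw [← Finset.sum_mul]
    congr 1
    rw [Finset.sum_congr rfl (fun b _ => by rw [show a * b + b * c = b * (c + a) by ring]),
      sum_psi]
    simp only [add_eq_zero_iff_eq_neg]
  simp [this]

theorem idft_dft (n : ℕ) [NeZero n] (x : ZMod n → ℂ) : idft n (dft n x) = x := by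
  funext a
  have ha : (n : ℂ) ≠ 0 := by exact_mod_cast NeZero.ne n
  rw [idft, dft_dft, neg_neg, ← mul_assoc, inv_mul_cancel₀ ha, one_mul]

theorem idft_eq (n : ℕ) [NeZero n] (x : ZMod n → ℂ) :
    idft n x = dft n (fun b => (n : ℂ)⁻¹ * x (-b)) := by
  funext a
  simp only [idft, dft, Finset.mul_sum]
  rw [← Equiv.sum_comp (Equiv.neg (ZMod n))]
  refine Finset.sum_congr rfl (fun b _ => ?_)
  simp only [Equiv.neg_apply, mul_neg, neg_mul, neg_neg]
  ring

theorem dft_idft (n : ℕ) [NeZero n] (x : ZMod n → ℂ) : dft n (idft n x) = x := by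
  funext a
  have ha : (n : ℂ) ≠ 0 := by exact_mod_cast NeZero.ne n
  rw [idft_eq, dft_dft, neg_neg, ← mul_assoc, mul_inv_cancel₀ ha, one_mul]

theorem idft_mul (n : ℕ) [NeZero n] (c x : ZMod n → ℂ) (a : ZMod n) :
    idft n (fun k => dft n c k * dft n x k) a = ∑ b, c (a - b) * x b := by
  have : (fun k => dft n c k * dft n x k) = dft n (fun a => ∑ b, c (a - b) * x b) := by
    funext k
    simp only [dft, Finset.mul_sum]
    rw [Finset.sum_comm]
    refine Finset.sum_congr rfl (fun b _ => ?_)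
    rw [Finset.sum_mul, ← Equiv.sum_comp (Equiv.subRight b)]
    refine Finset.sum_congr rfl (fun u _ => ?_)
    rw [Equiv.subRight_apply,
      show k * u = k * (u - b) + k * b by ring, AddChar.map_add_eq_mul]
    ring
  rw [this, idft_dft]

theorem Dep.idft {n D : ℕ} [NeZero n] (h : Dep D (dft n)) : Dep D (idft n) :=
  h.comp (Dep.gather (fun _ => (n : ℂ)⁻¹) (fun a => -a))

end Crest.Agent.R324
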