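import Mathlib
import Crest.Agent.R324.Dep
import Crest.Agent.R324.InPlaceA

set_option autoImplicit false

namespace Crest.Agent.R324

open Finset

section Three

variable {α β : Type}

/-- three registers -/
def st (s : (α → ℂ) × (α → ℂ) × (β → ℂ)) : α ⊕ α ⊕ β → ℂ := Sum.elim s.1 (Sum.elim s.2.1 s.2.2)

/-- reading three registers -/
def unst (x : α ⊕ α ⊕ β → ℂ) : (α → ℂ) × (α → ℂ) × (β → ℂ) :=
  (fun a => x (.inl a), fun a => x (.inr (.inl a)), fun b => x (.inr (.inr b)))

theorem unst_st (s : (α → ℂ) × (α → ℂ) × (β → ℂ)) : unst (st s) = s := rfl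

/-- in-place circuits on three registers -/
def Dep3 (D : ℕ) (F : (α → ℂ) × (α → ℂ) × (β → ℂ) → (α → ℂ) × (α → ℂ) × (β → ℂ)) : Prop :=
  Dep D (fun x => st (F (unst x)))

theorem Dep3.comp {D D' : ℕ} {F G : (α → ℂ) × (α → ℂ) × (β → ℂ) → (α → ℂ) × (α → ℂ) × (β → ℂ)}
    (hF : Dep3 D F) (hG : Dep3 D' G) : Dep3 (D + D') (fun s => G (F s)) :=
  Dep.comp hF hG

theorem Dep3.congr {D D' : ℕ} {F G : (α → ℂ) × (α → ℂ) × (β → ℂ) → (α → ℂ) × (α → ℂ) × (β → ℂ)}
    (hF : Dep3 D F) (h : ∀ x y w, G (x, y, w) = F (x, y, w)) (hD : D ≤ D') : Dep3 D' G := by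
  have : G = F := funext fun ⟨x, y, w⟩ => h x y w
  rw [this]; exact Dep.mono hF hD

theorem dep3_w {D : ℕ} {G : (β → ℂ) → β → ℂ} (hG : Dep D G) :
    Dep3 (α := α) D (fun s => (s.1, s.2.1, G s.2.2)) := by
  refine Dep.of_block (e := fun b => Sum.inr (Sum.inr b))
    (Sum.inr_injective.comp Sum.inr_injective) hG _ (fun _ _ => rfl) ?_
  rintro x (a | a | b) hi
  · rfl
  · rfl
  · exact absurd ⟨b, rfl⟩ hi

theorem dep3_gather (c d : α → ℂ) (π ρ : α → α) :
    Dep3 (β := β) 0 (fun s => (fun a => c a * s.1 (π a), fun a => d a * s.2.1 (ρ a), s.2.2)) := by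
  refine (Dep.gather (Sum.elim c (Sum.elim d (fun _ => 1)))
    (Sum.map π (Sum.map ρ id))).congr ?_
  rintro x (a | a | b) <;> simp [st, unst]

theorem dep3_swap : Dep3 (α := α) (β := β) 0 (fun s => (s.2.1, s.1, s.2.2)) := by
  refine (Dep.gather (fun _ => 1) (Sum.elim (fun a => .inr (.inl a))
    (Sum.elim (fun a => .inl a) (fun b => .inr (.inr b))))).congr ?_
  rintro x (a | a | b) <;> simp [st, unst]

theorem dep3_yx (c : α → ℂ) :
    Dep3 (β := β) 1 (fun s => (s.1, fun a => s.2.1 a + c a * s.1 a, s.2.2)) := by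
  refine (Dep.shear (Set.range (fun a : α => (Sum.inr (Sum.inl a) : α ⊕ α ⊕ β)))
    (Sum.elim (fun a => .inl a) (Sum.elim (fun a => .inl a) (fun b => .inr (.inr b))))
    ?_ ?_ (Sum.elim c (Sum.elim c (fun _ => 0)))).congr ?_
  · rintro _ ⟨a, rfl⟩ _ ⟨b, rfl⟩ h
    simpa using h
  · rintro _ ⟨a, rfl⟩; simp
  · rintro x (a | a | b) <;> simp [st, unst]

theorem dep3_yw (c : ℂ) {r : α → β} (hr : Function.Injective r) :
    Dep3 1 (fun s => (s.1, fun a => s.2.1 a + c * s.2.2 (r a), s.2.2)) := by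
  refine (Dep.shear (Set.range (fun a : α => (Sum.inr (Sum.inl a) : α ⊕ α ⊕ β)))
    (Sum.elim (fun a => .inl a) (Sum.elim (fun a => .inr (.inr (r a))) (fun b => .inr (.inr b))))
    ?_ ?_ (fun _ => c)).congr ?_
  · rintro _ ⟨a, rfl⟩ _ ⟨b, rfl⟩ h
    simpa [hr.eq_iff] using h
  · rintro _ ⟨a, rfl⟩; simp
  · rintro x (a | a | b) <;> simp [st, unst]

theorem dep3_wx (c : ℂ) {r : α → β} (hr : Function.Injective r) :
    Dep3 1 (fun s => (s.1, s.2.1, fun b => s.2.2 b + c * Function.extend r s.1 0 b)) := by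
  refine (Dep.shear (Set.range (fun a : α => (Sum.inr (Sum.inr (r a)) : α ⊕ α ⊕ β)))
    (Sum.elim (fun a => .inl a) (Sum.elim (fun a => .inl a)
      (Function.extend r (fun a => .inl a) (fun b => .inr (.inr b)))))
    ?_ ?_ (fun _ => c)).congr ?_
  · rintro _ ⟨a, rfl⟩ _ ⟨b, rfl⟩ h
    simpa [hr.eq_iff, hr.extend_apply] using h
  · rintro _ ⟨a, rfl⟩; simp [hr.extend_apply]
  · rintro x (a | a | b)
    · simp [st, unst]
    · simp [st, unst]
    · by_cases h : ∃ a, r a = b
      · obtain ⟨a, rfl⟩ := h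
        simp [st, unst, hr.extend_apply]
      · simp [st, unst, h]

variable (β) in
/-- `y += T x` -/
def Acc (D : ℕ) (T : (α → ℂ) → α → ℂ) : Prop :=
  Dep3 (α := α) (β := β) D (fun s => (s.1, s.2.1 + T s.1, s.2.2))

theorem acc_dirty {D : ℕ} {G G' : (β → ℂ) → β → ℂ} (hG : Dep D G) (hG' : Dep D G')
    (hinv : ∀ w, G' (G w) = w) (hadd : ∀ u v, G (u + v) = G u + G v) {r : α → β}
    (hr : Function.Injective r) :
    Acc β (4 * D + 4) (fun x a => G (Function.extend r x 0) (r a)) := by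
  refine ((((((((dep3_w hG).comp (dep3_yw (-1) hr)).comp (dep3_w hG')).comp
    (dep3_wx 1 hr)).comp (dep3_w hG)).comp (dep3_yw 1 hr)).comp (dep3_w hG')).comp
    (dep3_wx (-1) hr)).congr (fun x y w => ?_) (by omega)
  simp only [hinv, one_mul]
  refine Prod.ext rfl (Prod.ext ?_ ?_)
  · funext a
    have := hadd w (Function.extend r x 0)
    simp only [Pi.add_def] at this
    simp [this]
  · funext b; simp

theorem Acc.add_diag {D : ℕ} {T : (α → ℂ) → α → ℂ} (h : Acc β D T) (c : α → ℂ) :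
    Acc β (D + 1) (fun x a => T x a + c a * x a) :=
  (Dep3.comp h (dep3_yx c)).congr (fun x y w => by
    refine Prod.ext rfl (Prod.ext ?_ rfl)
    funext a; simp [add_assoc]) le_rfl

theorem Acc.conj {D : ℕ} {T : (α → ℂ) → α → ℂ} (h : Acc β D T) (c d : α → ℂ)
    (hc : ∀ a, c a ≠ 0) (hd : ∀ a, d a ≠ 0) (ρ : α ≃ α) :
    Acc β D (fun x a => c a * T (fun b => d b * x b) (ρ a)) := by
  refine (((dep3_gather d (fun a => (c (ρ.symm a))⁻¹) id ρ.symm).comp h).comp
    (dep3_gather (fun a => (d a)⁻¹) c id ρ)).congr (fun x y w => ?_) (by omega)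
  refine Prod.ext ?_ (Prod.ext ?_ rfl)
  · funext a; simp [hd a]
  · funext a; simp [hc a, mul_add]

theorem dep3_pair {D : ℕ} {F F' : (α → ℂ) → α → ℂ} (hF : Acc β D F)
    (hF' : Acc β D (fun x => -F' x)) (h1 : ∀ x, F' (F x) = x) (h2 : ∀ x, F (F' x) = x)
    (h3 : ∀ u v, F' (u + v) = F' u + F' v) (h4 : ∀ u, F (-u) = -F u) :
    Dep3 (β := β) (3 * D) (fun s => (F s.1, F' s.2.1, s.2.2)) := by
  refine ((((((Dep3.comp hF dep3_swap).comp hF').comp dep3_swap).comp hF).comp dep3_swap).comp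
    (dep3_gather (fun _ => 1) (fun _ => -1) id id)).congr (fun x y w => ?_) (by omega)
  have e : x + -F' (y + F x) = -F' y := by rw [h3, h1]; abel
  simp only [e, h4, h2]
  refine Prod.ext ?_ (Prod.ext ?_ rfl)
  · funext a; simp
  · funext a; simp

end Three

theorem sum_mul_extend {α β : Type} [Fintype α] [Fintype β] {r : α → β}
    (hr : Function.Injective r) (f : β → ℂ) (x : α → ℂ) :
    ∑ z, f z * Function.extend r x 0 z = ∑ b, f (r b) * x b := by
  symm
  refine Fintype.sum_of_injective r hr _ _ (fun z hz => ?_) (fun b => by rw [hr.extend_apply])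
  rw [Function.extend_apply' _ _ _ hz]; simp

/-- accumulating a cyclic convolution with a dirty power-of-two workspace -/
theorem acc_conv (p e : ℕ) [NeZero p] (h : 2 * p ≤ 2 ^ e) (c : ZMod p → ℂ) :
    Acc (ZMod (2 ^ e)) (16 * e + 5) (fun x a => ∑ b, c (a - b) * x b) := by
  set n := 2 ^ e with hn
  let r : ZMod p → ZMod n := fun a => (a.val : ZMod n)
  have hp := NeZero.pos p
  have hr : Function.Injective r := by
    intro a b hab
    have h1 := (ZMod.natCast_eq_natCast_iff' _ _ _).1 hab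
    rw [Nat.mod_eq_of_lt (by have := a.val_lt; omega),
      Nat.mod_eq_of_lt (by have := b.val_lt; omega)] at h1
    exact ZMod.val_injective _ h1
  let c' : ZMod n → ℂ := fun z => c (z.valMinAbs : ZMod p)
  have hc' : ∀ a b, c' (r a - r b) = c (a - b) := by
    intro a b
    have : (r a - r b).valMinAbs = (a.val : ℤ) - b.val := by
      rw [ZMod.valMinAbs_spec]
      have h1 := a.val_lt
      have h2 := b.val_lt
      refine ⟨by simp [r], ?_, ?_⟩ <;> omega
    simp [c', this]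
  obtain ⟨s, hs⟩ := Infinite.exists_notMem_finset (univ.image (fun k => -dft n c' k))
  have hs' : ∀ k, dft n c' k + s ≠ 0 := by
    intro k hk
    exact hs (mem_image.2 ⟨k, mem_univ _, (eq_neg_of_add_eq_zero_right hk).symm⟩)
  have hF := dep_dft_two_pow' e
  have hG := (hF.comp (Dep.gather (fun k => dft n c' k + s) (fun k => k))).comp hF.idft
  have hG' := (hF.comp (Dep.gather (fun k => (dft n c' k + s)⁻¹) (fun k => k))).comp hF.idft
  have := (acc_dirty hG hG' (fun w => ?_) (fun u v => ?_) hr).add_diag (fun _ => -s)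
  · refine Dep3.congr this (fun x y w => ?_) (by omega)
    refine Prod.ext rfl (Prod.ext ?_ rfl)
    funext a
    simp only [Pi.add_apply, add_right_inj]
    have e1 : (fun k => (dft n c' k + s) * dft n (Function.extend r x 0) k)
        = (fun k => dft n c' k * dft n (Function.extend r x 0) k)
          + dft n (fun z => s * Function.extend r x 0 z) := by
      funext k
      rw [Pi.add_apply, add_mul, add_right_inj]
      simp only [dft, Finset.mul_sum]
      exact Finset.sum_congr rfl (fun _ _ => by ring)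
    rw [e1, idft_add, idft_dft, Pi.add_apply, idft_mul, sum_mul_extend hr, hr.extend_apply]
    simp [hc']
  · simp only [dft_idft, ← mul_assoc, inv_mul_cancel₀ (hs' _), one_mul]
    exact idft_dft n w
  · rw [← idft_add, dft_add]
    congr 1
    funext k; simp [mul_add]

theorem dft_chirp (p : ℕ) [NeZero p] (hp : Odd p) : ∃ c d : ZMod p → ℂ, (∀ a, d a ≠ 0) ∧
    ∀ x a, dft p x a = d a * ∑ b, c (a - b) * (d b * x b) := by
  obtain ⟨k, hk⟩ := hp
  have h2 : (2 : ZMod p) * (k + 1) = 1 := by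
    have : ((2 * k + 1 : ℕ) : ZMod p) = 0 := by rw [← hk]; simp
    push_cast at this
    linear_combination this
  refine ⟨fun a => ZMod.stdAddChar (-(((k : ZMod p) + 1) * a ^ 2)),
    fun a => ZMod.stdAddChar (((k : ZMod p) + 1) * a ^ 2), fun a => ?_, fun x a => ?_⟩
  · exact (AddChar.val_isUnit _ _).ne_zero
  · rw [dft, Finset.mul_sum]
    refine Finset.sum_congr rfl (fun b _ => ?_)
    simp only [← mul_assoc, ← AddChar.map_add_eq_mul]
    congr 2
    linear_combination (-(a * b)) * h2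

theorem dep3_dft (p e : ℕ) [NeZero p] (hp : Odd p) (h : 2 * p ≤ 2 ^ e) :
    Dep3 (β := ZMod (2 ^ e)) (6 * (16 * e + 5)) (fun s => (dft p s.1, s.2.1, s.2.2)) := by
  obtain ⟨c, d, hd, hcd⟩ := dft_chirp p hp
  have hp0 : (p : ℂ) ≠ 0 := by exact_mod_cast NeZero.ne p
  have a0 : Acc (ZMod (2 ^ e)) (16 * e + 5) (dft p) := by
    have := (acc_conv p e h c).conj d d hd hd (Equiv.refl _)
    refine Dep3.congr this (fun x y w => ?_) le_rfl
    refine Prod.ext rfl (Prod.ext ?_ rfl)
    funext a; simp [hcd]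
  have a1 : Acc (ZMod (2 ^ e)) (16 * e + 5) (fun x => -dft p x) := by
    have := a0.conj (fun _ => -1) (fun _ => 1) (by simp) (by simp) (Equiv.refl _)
    refine Dep3.congr this (fun x y w => ?_) le_rfl
    refine Prod.ext rfl (Prod.ext ?_ rfl)
    funext a; simp
  have a2 : Acc (ZMod (2 ^ e)) (16 * e + 5) (idft p) := by
    have := a0.conj (fun _ => (p : ℂ)⁻¹) (fun _ => 1) (by simp [hp0]) (by simp) (Equiv.neg _)
    refine Dep3.congr this (fun x y w => ?_) le_rfl
    refine Prod.ext rfl (Prod.ext ?_ rfl)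
    funext a; simp [idft]
  have a3 : Acc (ZMod (2 ^ e)) (16 * e + 5) (fun x => -idft p x) := by
    have := a2.conj (fun _ => -1) (fun _ => 1) (by simp) (by simp) (Equiv.refl _)
    refine Dep3.congr this (fun x y w => ?_) le_rfl
    refine Prod.ext rfl (Prod.ext ?_ rfl)
    funext a; simp
  have p1 := dep3_pair a0 a3 (idft_dft p) (dft_idft p) (idft_add p) (dft_neg p)
  have p2 := dep3_pair a2 a1 (dft_idft p) (idft_dft p) (dft_add p) (idft_neg p)
  refine (((((dep3_gather d (fun _ => 1) id id).comp p1).comp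
    (dep3_gather (dft p c) (fun _ => 1) id id)).comp p2).comp
    (dep3_gather d (fun _ => 1) id id)).congr (fun x y w => ?_) (by omega)
  refine Prod.ext ?_ (Prod.ext ?_ rfl)
  · funext a
    simp only [id, idft_mul]
    exact hcd x a
  · funext a
    simp only [id, one_mul, dft_idft]

open Classical in
/-- transform the columns in `S` -/
noncomputable def colF (p : ℕ) [NeZero p] (S : Finset (ZMod p)) (x : ZMod p × ZMod p → ℂ)
    (q : ZMod p × ZMod p) : ℂ :=
  if q.2 ∈ S then dft p (fun j => x (j, q.2)) q.1 else x q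

theorem dep_colF_small (p e : ℕ) [NeZero p] (hp : Odd p) (h : 2 * p ≤ 2 ^ e) (h' : 2 ^ e ≤ 4 * p)
    (S : Finset (ZMod p)) (hS : 6 * S.card ≤ p) : Dep (6 * (16 * e + 5)) (colF p S) := by
  classical
  have hcard : Fintype.card (S × (ZMod p ⊕ ZMod (2 ^ e))) ≤
      Fintype.card (ZMod p × {j : ZMod p // j ∉ S}) := by
    simp only [Fintype.card_prod, Fintype.card_coe, Fintype.card_sum, ZMod.card,
      Fintype.card_subtype_compl]
    calc S.card * (p + 2 ^ e) ≤ S.card * (5 * p) := Nat.mul_le_mul_left _ (by omega)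
      _ = p * (5 * S.card) := by ring
      _ ≤ p * (p - S.card) := Nat.mul_le_mul_left _ (by omega)
  obtain ⟨f⟩ := Function.Embedding.nonempty_of_card_le hcard
  let E : S × (ZMod p ⊕ ZMod p ⊕ ZMod (2 ^ e)) → ZMod p × ZMod p := fun q =>
    Sum.elim (fun a => (a, (q.1 : ZMod p))) (fun z => ((f (q.1, z)).1, ((f (q.1, z)).2 : ZMod p))) q.2
  have hE : Function.Injective E := by
    rintro ⟨s, a | z⟩ ⟨s', a' | z'⟩ hh <;> simp only [E, Sum.elim_inl, Sum.elim_inr,
      Prod.mk.injEq] at hh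
    · rw [hh.1, Subtype.ext hh.2]
    · exact absurd (hh.2 ▸ s.2) (f (s', z')).2.2
    · exact absurd (hh.2.symm ▸ s'.2) (f (s, z)).2.2
    · have := f.injective (Prod.ext hh.1 (Subtype.ext hh.2))
      simp only [Prod.mk.injEq] at this
      rw [this.1, this.2]
  refine Dep.of_blocks hE _ (fun _ => dep3_dft p e hp h) _ ?_ ?_
  · rintro x s (a | a | b)
    · simp [colF, E, st, unst]
    · simp [colF, E, st, unst, (f (s, Sum.inl a)).2.2]
    · simp [colF, E, st, unst, (f (s, Sum.inr b)).2.2]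
  · rintro x ⟨a, j⟩ hi
    rw [colF, if_neg]
    intro hj
    exact hi ⟨(⟨j, hj⟩, Sum.inl a), rfl⟩

theorem dep_colF (p m D : ℕ) [NeZero p]
    (h : ∀ S : Finset (ZMod p), S.card ≤ m → Dep D (colF p S)) (k : ℕ) :
    ∀ S : Finset (ZMod p), S.card ≤ k * m → Dep (k * D) (colF p S) := by
  classical
  induction k with
  | zero =>
    intro S hS
    have : S = ∅ := by simpa using hS
    subst this
    exact (Dep.id _).congr (fun x a => by simp [colF])
  | succ k ih =>
    intro S hS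
    obtain ⟨S₁, h1, h2⟩ := Finset.exists_subset_card_eq (min_le_left S.card m)
    have h3 : (S \ S₁).card ≤ k * m := by
      rw [Finset.card_sdiff_of_subset h1, h2]
      rw [Nat.succ_mul] at hS
      omega
    rw [Nat.succ_mul]
    refine ((ih _ h3).comp (h S₁ (h2 ▸ min_le_right _ _))).congr (fun x q => ?_)
    by_cases a1 : q.2 ∈ S₁
    · simp [colF, a1, h1 a1]
    · by_cases a2 : q.2 ∈ S <;> simp [colF, a1, a2]

/-- radix-2 FFT, in place -/
theorem dep_dft_two_pow (e : ℕ) : Dep (2 * e) (dft (2 ^ e)) := dep_dft_two_pow' e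

/-- in-place DFT of order `p ^ 2`, logarithmic depth -/
theorem dep_dft_sq : ∃ c : ℕ, ∀ (p : ℕ) [NeZero p], Odd p → 11 ≤ p →
    Dep (c * Nat.log 2 p) (dft (p ^ 2)) := by
  refine ⟨7000, fun p _ hp h11 => ?_⟩
  have l1 : 2 ^ Nat.log 2 p ≤ p := Nat.pow_log_le_self 2 (by omega)
  have l2 : p < 2 ^ (Nat.log 2 p + 1) := Nat.lt_pow_succ_log_self one_lt_two p
  have l3 : 1 ≤ Nat.log 2 p := Nat.log_pos one_lt_two (by omega)
  have h1 := dep_colF p (p / 6) _ (fun S hS => dep_colF_small p (Nat.log 2 p + 2) hp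
    (by rw [pow_succ]; omega) (by rw [pow_add]; omega) S (by omega)) 11 univ
    (by rw [Finset.card_univ, ZMod.card]; omega)
  have h2 : Dep (11 * (6 * (16 * (Nat.log 2 p + 2) + 5)))
      (fun (x : ZMod p × ZMod p → ℂ) q => dft p (fun j => x (j, q.2)) q.1) :=
    h1.congr (fun x q => by simp [colF])
  have h3 := h2.equiv (Equiv.prodComm _ _)
  exact dep_dft_cast (pow_two p).symm ((cooley_tukey p p h2 h3).mono (by omega))

end Crest.Agent.R324
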