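import Mathlib
import Crest.Agent.R324.Batch

set_option autoImplicit false

namespace Crest.Agent.R324

open Finset Crest.FourierCircuit

lemma Cost.sparse {ι κ J : Type} [Fintype κ] [Fintype J] (c : κ → J → ℂ) (π : κ → J → ι) :
    Cost (Fintype.card κ * (2 * Fintype.card J)) (fun (x : ι → ℂ) k => ∑ j, c k j * x (π k j)) :=
  Cost.of_get fun _ h0 hS =>
    Get.range (u := fun (k : κ) (x : ι → ℂ) => ∑ j, c k j * x (π k j))
      fun k => Get.lincomb univ h0 (c k) (fun j x => x (π k j)) fun _ _ _ => hS _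

lemma Cost.batch {ι κ : Type} (β : Type) [Fintype β] {s : ℝ} {f : (ι → ℂ) → κ → ℂ}
    (h : Cost s f) : Cost (Fintype.card β * s)
      (fun (u : β × ι → ℂ) (q : β × κ) => f (fun i => u (q.1, i)) q.2) := by
  have := Cost.cover (A := β) (s := fun _ => s)
    (f := fun b (u : β × ι → ℂ) (k : κ) => f (fun i => u (b, i)) k)
    (fun b => h.reindex (fun i => (b, i)) (fun k => k))
    (fun (u : β × ι → ℂ) (q : β × κ) => f (fun i => u (q.1, i)) q.2)
    (fun q => ⟨q.1, q.2, fun _ => rfl⟩)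
  simpa using this

theorem batch {Λ : Type} [Fintype Λ] [DecidableEq Λ] {s : ℝ} (hs : Cost s (Etr Λ))
    (β : Type) [Fintype β] (hβ : Fintype.card Com ≤ Fintype.card β) :
    Cost ((10 ^ 6 * Fintype.card β -
        (Fintype.card Tr : ℝ) ^ 2 * (2 * Fintype.card Tr - 30000)) * c1 K3 Λ s +
        (3 * (Fintype.card Tr : ℝ) ^ 2 * gops + (Fintype.card Tr : ℝ) ^ 3) * c2 K3 Λ)
      (fun (u : β × (Λ × K3 → ZMod 2) → ℂ) (q : β × (Λ × K3 → ZMod 2)) =>
        Etr (Λ × K3) (fun g => u (q.1, g)) q.2) := by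
  classical
  obtain ⟨e⟩ := Function.Embedding.nonempty_of_card_le hβ
  obtain ⟨σ, hσ1, hσ2⟩ : ∃ σ : β → K3 → K3 → ZMod 2, (∀ i, σ (e i) = srcL i) ∧
      ∀ b, b ∉ Set.range e → σ b = 0 :=
    ⟨Function.extend e srcL 0, fun i => e.injective.extend_apply _ _ _,
      fun b hb => Function.extend_apply' _ _ _ hb⟩
  have hex : ∀ b, ∃ φ, Ref φ (σ b) := fun b => by
    by_cases hb : b ∈ Set.range e
    · obtain ⟨i, rfl⟩ := hb
      rw [hσ1]; exact srcL_ref i
    · rw [hσ2 b hb]; exact ⟨_, Ref.one⟩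
  choose φ hφ using hex
  have hph : ∀ b (y : Λ × K3 → ZMod 2), ph (φ b) y ≠ 0 := fun b y =>
    Finset.prod_ne_zero_iff.2 fun l _ => (hφ b).1 _
  obtain ⟨F, hF⟩ : ∃ F : β → (β × (Λ × K3 → ZMod 2) → ℂ) → (Λ × K3 → ZMod 2) → ℂ,
      ∀ b u y, F b u y = ana (fun g => u (b, g)) y / ph (φ b) y := ⟨_, fun _ _ _ => rfl⟩
  refine Cost.of_get fun S h0 hS => ?_
  have hav : ∀ b, avs (σ b) (F b) ⊆ S := fun b => (avs_subset (hφ b) _).trans (by
    rintro _ ⟨g, rfl⟩
    have : (fun u => syn (fun y => ph (φ b) y * F b u y) g) = fun u => u (b, g) := by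
      funext u
      have : (fun y => ph (φ b) y * F b u y) = ana (fun g => u (b, g)) := by
        funext y
        rw [hF, mul_div_cancel₀ _ (hph b y)]
      rw [this, syn_ana]
    simp only [this]
    exact hS _)
  have h1 := net hs h0 (fun i => F (e i)) fun i => hσ1 i ▸ hav (e i)
  have h2 := move_fam hs h0 (fun b : {b // b ∉ Set.range e} => σ b)
    (fun b => σ b + idm K3) (fun b => F b) (fun b => hav b) (10 ^ 6) fun b =>
      (Near.idm.mono (by simp)).congr (by linear_combination loc_add_self (σ b))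
  refine (h1.union h2).mono (le_of_eq ?_) ?_
  · rw [Fintype.card_subtype_compl, Set.card_range_of_injective e.injective, Nat.cast_sub hβ]
    push_cast
    ring
  · rintro _ ⟨⟨b, g⟩, rfl⟩
    have hmem : (fun u : β × (Λ × K3 → ZMod 2) → ℂ => Etr (Λ × K3) (fun g => u (b, g)) g) ∈
        avs (σ b + idm K3) (F b) := by
      refine ⟨_, (hφ b).mul ref_idm, g, ?_⟩
      funext u
      have h3 : (fun g => u (b, g)) = syn (ana fun g => u (b, g)) := by
        funext g; rw [syn_ana]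
      rw [h3, ← syn_Etr]
      congr 1
      funext y
      have := hph b y
      rw [hF]
      unfold ph at this ⊢
      rw [Finset.prod_mul_distrib, Fintype.prod_prod_type]
      field_simp
    by_cases hb : b ∈ Set.range e
    · obtain ⟨i, rfl⟩ := hb
      exact Or.inl (Set.mem_iUnion.2 ⟨i, hσ1 i ▸ hmem⟩)
    · exact Or.inr (Set.mem_iUnion.2 ⟨⟨b, hb⟩, hmem⟩)

lemma cost_Etr_equiv {κ κ' : Type} [Fintype κ] [DecidableEq κ] [Fintype κ'] [DecidableEq κ']
    (e : κ ≃ κ') {s : ℝ} (h : Cost s (Etr κ')) : Cost s (Etr κ) := by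
  refine (h.reindex (fun (g : κ' → ZMod 2) (k : κ) => g (e k))
    (fun (g : κ → ZMod 2) (k : κ') => g (e.symm k))).congr fun u g => ?_
  unfold Etr
  refine Fintype.sum_equiv (Equiv.arrowCongr e (Equiv.refl _)) _ _ fun ε => ?_
  congr 1
  · exact Fintype.prod_equiv e _ _ fun k => by simp
  · congr 1
    funext k
    simp

lemma cost_Etr_sum {κ κ' : Type} [Fintype κ] [DecidableEq κ] [Fintype κ'] [DecidableEq κ']
    {s : ℝ} (h : Cost s (fun (u : (κ' → ZMod 2) × (κ → ZMod 2) → ℂ)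
      (q : (κ' → ZMod 2) × (κ → ZMod 2)) => Etr κ (fun g => u (q.1, g)) q.2)) :
    Cost (s + 2 ^ (Fintype.card κ + Fintype.card κ') * (2 * 2 ^ Fintype.card κ'))
      (Etr (κ ⊕ κ')) := by
  have h1 := (h.reindex (fun q => Sum.elim q.2 q.1) (fun q => q)).comp
    (Cost.sparse (κ := κ ⊕ κ' → ZMod 2) (J := κ' → ZMod 2) (fun _ ε => ∏ k, gm (ε k))
      (fun g ε => ((fun k => g (.inr k)) + ε, fun k => g (.inl k))))
  refine (h1.le (le_of_eq (by simp))).congr fun u g => ?_
  unfold Etr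
  simp only [Finset.mul_sum]
  rw [← Fintype.sum_prod_type']
  refine Fintype.sum_equiv ((Equiv.sumArrowEquivProdArrow _ _ _).trans (Equiv.prodComm _ _)) _ _
    fun ε => ?_
  rw [Fintype.prod_sum_type, ← mul_assoc, mul_comm (∏ k, gm _)]
  congr 2
  funext k
  cases k <;> rfl

lemma cost_Etr_triv (κ : Type) [Fintype κ] [DecidableEq κ] :
    Cost (2 ^ Fintype.card κ * (2 * 2 ^ Fintype.card κ)) (Etr κ) := by
  have := Cost.sparse (κ := κ → ZMod 2) (J := κ → ZMod 2) (fun _ ε => ∏ k, gm (ε k))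
    (fun g ε => g + ε)
  exact this.le (le_of_eq (by simp))

lemma card_Com_le : Fintype.card Com ≤ 2 ^ 71 := by
  have h : Fintype.card Hp ≤ 161700 * 161700 := by
    have := Fintype.card_subtype_le (fun q : Tr × Tr => Even #(q.1.1 ∩ q.2.1))
    rwa [Fintype.card_prod, card_Tr] at this
  simp only [Fintype.card_sum, Fintype.card_prod, card_Tr]
  omega

lemma recur_arith (a b M B t P : ℝ) (ha : 0 ≤ a) (hb : 0 ≤ b) (hbM : b ≤ M) (hB : 0 ≤ B)
    (ht : 0 ≤ t) (hP : P = 2 ^ 71) :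
    b * ((10 ^ 6 * P - 161700 ^ 2 * (2 * 161700 - 30000)) * (t * a) + B * (2 * a) +
        a * P * (2 * P)) + a * P * b * (2 * b) ≤
      ((10 ^ 6 - 6871402692000000 / P) * t + (2 * B + 2 * P + 2 * M)) * (a * P * b) := by
  have p1 := mul_nonneg ha hb
  have p2 := mul_nonneg p1 ht
  have p3 := mul_nonneg p1 hB
  have p4 := mul_le_mul_of_nonneg_left hbM p1
  have hP0 : P ≠ 0 := by rw [hP]; positivity
  have : ((10 ^ 6 - 6871402692000000 / P) * t + (2 * B + 2 * P + 2 * M)) * (a * P * b) =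
      (10 ^ 6 * P - 6871402692000000) * (a * b * t) + (2 * B + 2 * P + 2 * M) * (a * P * b) := by
    field_simp
  rw [this, hP]
  nlinarith

lemma ops_nonneg (a b : ℕ) :
    0 ≤ 3 * (a : ℝ) ^ 2 * (a * (2 * b + 2 * 100 + 3) + 4 * b) + (a : ℝ) ^ 3 := by positivity

lemma recur_step (m : ℕ) (hm : m = 10 ^ 6) : ∃ c : ℝ, 0 ≤ c ∧ ∀ (L j : ℕ) (t : ℝ), j < m →
    Cost (t * 2 ^ L) (Etr (Fin L)) →
    Cost (((10 ^ 6 - 6871402692000000 / 2 ^ 71) * t + c) * 2 ^ (m * L + 71 + j))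
      (Etr (Fin (m * L + 71 + j))) := by
  obtain ⟨B, hB⟩ : ∃ B, B = 3 * (Fintype.card Tr : ℝ) ^ 2 * gops + (Fintype.card Tr : ℝ) ^ 3 :=
    ⟨_, rfl⟩
  have hB0 : 0 ≤ B := by
    rw [hB]; unfold gops
    exact ops_nonneg _ _
  have hK : Fintype.card K3 = m := by rw [hm]; simp
  have hm0 : m ≠ 0 := by rw [hm]; norm_num
  clear hm
  obtain ⟨m', rfl⟩ : ∃ m', m = m' + 1 := Nat.exists_eq_succ_of_ne_zero hm0
  refine ⟨2 * B + 2 * 2 ^ 71 + 2 * 2 ^ (m' + 1), by positivity, fun L j t hj h => ?_⟩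
  have ht : 0 ≤ t := nonneg_of_mul_nonneg_left h.nonneg (by positivity)
  have h1 := cost_Etr_sum (batch h (Fin 71 → ZMod 2) (by simpa using card_Com_le))
  rw [← hB] at h1
  have h2 := cost_Etr_sum (h1.batch (Fin j → ZMod 2))
  refine (cost_Etr_equiv (Fintype.equivOfCardEq (by
    simp only [Fintype.card_sum, Fintype.card_fin, Fintype.card_prod (Fin L), hK]; ring)) h2).le ?_
  simp only [c1, c2, hK, Fintype.card_fun, ZMod.card, Fintype.card_fin, Fintype.card_sum,
    Fintype.card_prod (Fin L), card_Tr, Nat.add_sub_cancel]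
  have e1 : (2 : ℝ) ^ (L * m') * 2 ^ L = 2 ^ (L * (m' + 1)) := by
    rw [← pow_add]; congr 1
  have e2 : (2 : ℝ) ^ ((m' + 1) * L + 71 + j) = 2 ^ (L * (m' + 1)) * 2 ^ 71 * 2 ^ j := by
    rw [pow_add, pow_add, mul_comm (m' + 1) L]
  have e3 : (2 : ℝ) ^ j ≤ 2 ^ (m' + 1) := pow_le_pow_right₀ (by norm_num) hj.le
  rw [mul_left_comm (2 ^ (L * m')), e1, e2, pow_add, pow_add, pow_add]
  simp only [Nat.cast_pow, Nat.cast_ofNat]
  exact recur_arith (2 ^ (L * (m' + 1))) (2 ^ j) _ B t _ (by positivity) (by positivity) e3 hB0 ht rfl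

lemma theta_facts : 0 < savingExponent ∧ savingExponent ≤ 1 ∧
    (10 ^ 6 : ℝ) ^ savingExponent = 10 ^ 6 - 6871402692000000 / 2 ^ 71 := by
  refine ⟨Real.logb_pos (by norm_num) (by norm_num), ?_,
    Real.rpow_logb (by norm_num) (by norm_num) (by norm_num)⟩
  unfold savingExponent
  rw [Real.logb_le_iff_le_rpow (by norm_num) (by norm_num)]
  norm_num

theorem cost_Etr : ∃ C : ℝ, 0 ≤ C ∧ ∀ (κ : Type) [Fintype κ] [DecidableEq κ],
    Cost (C * ((Fintype.card κ : ℝ) + 1) ^ savingExponent * 2 ^ Fintype.card κ) (Etr κ) := by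
  obtain ⟨hθ0, -, hθ⟩ := theta_facts
  obtain ⟨m, hm⟩ : ∃ m : ℕ, m = 10 ^ 6 := ⟨_, rfl⟩
  obtain ⟨c, hc, hrec⟩ := recur_step m hm
  have hm0 : 1 < m := by rw [hm]; norm_num
  have hρ : (2 : ℝ) ≤ 10 ^ 6 - 6871402692000000 / 2 ^ 71 := by norm_num
  rw [← hθ] at hrec hρ
  have hmr : ((10 : ℝ) ^ 6) = (m : ℝ) := by rw [hm]; norm_num
  rw [hmr] at hρ hrec
  clear hm hmr hθ
  obtain ⟨C, hC⟩ : ∃ C : ℝ, C = 2 * 2 ^ (m + 71) + c := ⟨_, rfl⟩
  have hC0 : 0 ≤ C := by rw [hC]; positivity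
  have key : ∀ n : ℕ, 1 ≤ n →
      Cost ((C * (n : ℝ) ^ savingExponent - c) * 2 ^ n) (Etr (Fin n)) := by
    intro n
    induction n using Nat.strong_induction_on with
    | _ n ih =>
      intro hn
      by_cases hsmall : n < m + 71
      · refine (cost_Etr_triv (Fin n)).le ?_
        rw [Fintype.card_fin, mul_comm]
        refine mul_le_mul_of_nonneg_right ?_ (by positivity)
        have h1 : (1 : ℝ) ≤ (n : ℝ) ^ savingExponent :=
          Real.one_le_rpow (by exact_mod_cast hn) hθ0.le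
        have h2 : (2 : ℝ) ^ n ≤ 2 ^ (m + 71) := pow_le_pow_right₀ (by norm_num) hsmall.le
        nlinarith
      · obtain ⟨L, j, hj, rfl⟩ : ∃ L j, j < m ∧ n = m * L + 71 + j :=
          ⟨(n - 71) / m, (n - 71) % m, Nat.mod_lt _ (by omega), by
            have := Nat.div_add_mod (n - 71) m; omega⟩
        have hL : 1 ≤ L := by
          by_contra h
          have : L = 0 := by omega
          subst this
          omega
        have hLn : L < m * L + 71 + j := by nlinarith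
        refine (hrec L j _ hj (ih L hLn hL)).le ?_
        refine mul_le_mul_of_nonneg_right ?_ (by positivity)
        have h1 : (m : ℝ) ^ savingExponent * (L : ℝ) ^ savingExponent ≤
            ((m * L + 71 + j : ℕ) : ℝ) ^ savingExponent := by
          rw [← Real.mul_rpow (by positivity) (by positivity)]
          refine Real.rpow_le_rpow (by positivity) ?_ hθ0.le
          push_cast
          have : (0 : ℝ) ≤ j := by positivity
          linarith
        nlinarith [mul_le_mul_of_nonneg_left h1 hC0]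
  refine ⟨C, hC0, fun κ _ _ => ?_⟩
  rcases Nat.eq_zero_or_pos (Fintype.card κ) with h0 | h0
  · refine (cost_Etr_triv κ).le ?_
    rw [h0, hC]
    have : (1 : ℝ) ≤ 2 ^ (m + 71) := one_le_pow₀ (by norm_num)
    simp
    linarith
  · refine (cost_Etr_equiv (Fintype.equivFin κ) (key _ h0)).le ?_
    refine mul_le_mul_of_nonneg_right ?_ (by positivity)
    have : ((Fintype.card κ : ℕ) : ℝ) ^ savingExponent ≤
        ((Fintype.card κ : ℝ) + 1) ^ savingExponent :=
      Real.rpow_le_rpow (by positivity) (by linarith) hθ0.le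
    nlinarith [mul_le_mul_of_nonneg_left this hC0]

end Crest.Agent.R324
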