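import Mathlib
import Crest.Agent.R324.Recur
import Crest.Agent.R324.Dep

set_option autoImplicit false

namespace Crest.Agent.R324

open Finset Complex Crest.FourierCircuit

section
variable {I : Type} [Fintype I] [DecidableEq I] {ι : I → Type} [∀ i, Fintype (ι i)]

/-- tensor product of matrices, acting on a vector -/
noncomputable def tens (A : ∀ i, ι i → ι i → ℂ) (u : (∀ i, ι i) → ℂ) (g : ∀ i, ι i) : ℂ :=
  ∑ h : ∀ i, ι i, (∏ i, A i (g i) (h i)) * u h

lemma tens_mul (A B : ∀ i, ι i → ι i → ℂ) (u : (∀ i, ι i) → ℂ) (g : ∀ i, ι i) :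
    tens (fun i a c => ∑ b, A i a b * B i b c) u g = tens A (tens B u) g := by
  classical
  unfold tens
  simp only [Finset.prod_univ_sum, Fintype.piFinset_univ, Finset.mul_sum, Finset.sum_mul]
  rw [Finset.sum_comm]
  refine Finset.sum_congr rfl fun m _ => Finset.sum_congr rfl fun h _ => ?_
  rw [Finset.prod_mul_distrib, mul_assoc]

lemma tens_gather [∀ i, DecidableEq (ι i)] (c : ∀ i, ι i → ℂ) (π : ∀ i, ι i → ι i)
    (u : (∀ i, ι i) → ℂ) (g : ∀ i, ι i) :
    tens (fun i a b => if b = π i a then c i a else 0) u g =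
      (∏ i, c i (g i)) * u (fun i => π i (g i)) := by
  unfold tens
  rw [Finset.sum_eq_single (fun i => π i (g i))]
  · simp
  · intro h _ hh
    obtain ⟨i, hi⟩ := Function.ne_iff.1 hh
    rw [Finset.prod_eq_zero (Finset.mem_univ i) (if_neg hi), zero_mul]
  · simp

lemma cost_tens_gather [∀ i, DecidableEq (ι i)] (c : ∀ i, ι i → ℂ) (π : ∀ i, ι i → ι i) :
    Cost (Fintype.card (∀ i, ι i)) (tens (fun i a b => if b = π i a then c i a else 0)) :=
  (Cost.gather _ _).congr fun u g => tens_gather c π u g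

end

/-- the shear matrix -/
noncomputable def sh (a b : ZMod 2) : ℂ := if a = 0 ∧ b = 1 then 0 else 1

/-- a diagonal matrix -/
noncomputable def dg (x y : ℂ) (a b : ZMod 2) : ℂ := if b = a then (if a = 0 then x else y) else 0

lemma sh_eq (a b : ZMod 2) : sh a b =
    ∑ b1, dg ((1 + I) / 3) ((1 - I) / 5) a b1 * ∑ b2, gm (b1 + b2) * ∑ b3, dg 1 2 b2 b3 *
      ∑ b4, gm (b3 + b4) * ∑ b5, dg 3 1 b4 b5 * ∑ b6, gm (b5 + b6) * dg 1 (5 * I / 4) b6 b := by
  rcases zmod2_cases a with rfl | rfl <;> rcases zmod2_cases b with rfl | rfl <;>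
    simp [sum_zmod2, sh, dg, zmod2_one_add_one, gm_zero, gm_one, Complex.ext_iff] <;> norm_num

lemma Etr_eq_tens (κ : Type) [Fintype κ] [DecidableEq κ] (u : (κ → ZMod 2) → ℂ)
    (g : κ → ZMod 2) : tens (fun (_ : κ) (a b : ZMod 2) => gm (a + b)) u g = Etr κ u g := by
  unfold Etr tens
  refine (Fintype.sum_equiv (Equiv.addLeft g) _ _ fun ε => ?_).symm
  simp only [Equiv.coe_addLeft, Pi.add_apply, ← add_assoc, zmod2_add_self, zero_add]

lemma cost_zeta (κ : Type) [Fintype κ] [DecidableEq κ] {s : ℝ} (hs : Cost s (Etr κ)) :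
    Cost (3 * s + 4 * 2 ^ Fintype.card κ) (tens (fun (_ : κ) => sh)) := by
  have hE : Cost s (tens (fun (_ : κ) (a b : ZMod 2) => gm (a + b))) :=
    hs.congr (Etr_eq_tens κ)
  have hD : ∀ x y : ℂ, Cost (2 ^ Fintype.card κ) (tens (fun (_ : κ) => dg x y)) := fun x y =>
    (cost_tens_gather (ι := fun _ : κ => ZMod 2) (fun _ a => if a = 0 then x else y)
      (fun _ a => a)).le (le_of_eq (by simp))
  have h := ((((((hD 1 (5 * I / 4)).comp hE).comp (hD 3 1)).comp hE).comp (hD 1 2)).comp hE).comp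
    (hD ((1 + I) / 3) ((1 - I) / 5))
  refine (h.le (le_of_eq (by ring))).congr fun u g => ?_
  have : (fun (_ : κ) => sh) = fun (_ : κ) a b => sh a b := rfl
  simp only [this, sh_eq, tens_mul]
  simp only [← funext (tens_mul _ _ _)]

section
variable {I : Type} [Fintype I] [DecidableEq I] {ι : I → Type} [∀ i, Fintype (ι i)]

set_option maxHeartbeats 800000 in
open Classical in
lemma cost_tens_shear (t : ℝ) (ht : ∀ p : I → Prop,
      Cost (t * 2 ^ Fintype.card {i // p i}) (tens (fun (_ : {i // p i}) => sh)))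
    (T : ∀ i, Set (ι i)) (σ : ∀ i, ι i → ι i) (h1 : ∀ i, Set.InjOn (σ i) (T i))
    (h2 : ∀ i, ∀ a ∈ T i, σ i a ∉ T i) :
    Cost (t * Fintype.card (∀ i, ι i)) (tens fun i (a b : ι i) =>
      (if b = a then 1 else 0) + if a ∈ T i ∧ b = σ i a then 1 else 0) := by
  have ht0 : 0 ≤ t := nonneg_of_mul_nonneg_left (ht fun _ => True).nonneg (by positivity)
  have : ∀ i (b : ι i), ∃ a, b ∈ σ i '' T i → a ∈ T i ∧ σ i a = b := fun i b => by
    by_cases h : b ∈ σ i '' T i
    · obtain ⟨a, ha⟩ := h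
      exact ⟨a, fun _ => ha⟩
    · exact ⟨b, fun h' => absurd h' h⟩
  choose ρ hρ using this
  obtain ⟨el, hel⟩ : ∃ el : ∀ g : {g : ∀ i, ι i // ∀ i, g i ∉ T i},
      ({i // g.1 i ∈ σ i '' T i} → ZMod 2) → ∀ i, ι i, ∀ g ε i, el g ε i =
        if h : g.1 i ∈ σ i '' T i then (if ε ⟨i, h⟩ = 0 then g.1 i else ρ i (g.1 i)) else g.1 i :=
    ⟨_, fun _ _ _ => rfl⟩
  have hmem : ∀ g ε i (h : g.1 i ∈ σ i '' T i), el g ε i ∈ T i ↔ ε ⟨i, h⟩ ≠ 0 := by
    intro g ε i h
    rw [hel, dif_pos h]
    split_ifs with h0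
    · simp [h0, g.2 i]
    · simp [h0, (hρ i _ h).1]
  have hback : ∀ g ε i, (if el g ε i ∈ T i then σ i (el g ε i) else el g ε i) = g.1 i := by
    intro g ε i
    rw [hel]
    by_cases h : g.1 i ∈ σ i '' T i
    · rw [dif_pos h]
      by_cases h0 : ε ⟨i, h⟩ = 0
      · rw [if_pos h0, if_neg (g.2 i)]
      · rw [if_neg h0, if_pos (hρ i _ h).1, (hρ i _ h).2]
    · rw [dif_neg h, if_neg (g.2 i)]
  have hinj1 : ∀ g, Function.Injective (el g) := by
    intro g ε δ h
    funext ⟨i, hi⟩
    have h3 := hmem g ε i hi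
    rw [h, hmem g δ i hi] at h3
    revert h3
    generalize ε ⟨i, hi⟩ = a
    generalize δ ⟨i, hi⟩ = b
    revert a b
    decide
  have hinj : Function.Injective fun q : Σ g : {g : ∀ i, ι i // ∀ i, g i ∉ T i},
      ({i // g.1 i ∈ σ i '' T i} → ZMod 2) => el q.1 q.2 := by
    rintro ⟨g, ε⟩ ⟨g', ε'⟩ h
    simp only at h
    have : g = g' := by
      apply Subtype.ext
      funext i
      rw [← hback g ε i, ← hback g' ε' i, h]
    subst this
    rw [hinj1 g h]
  have hc := Cost.cover (fun g : {g : ∀ i, ι i // ∀ i, g i ∉ T i} =>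
    (ht fun i => g.1 i ∈ σ i '' T i).reindex (el g) (fun ε => ε))
    (tens fun i (a b : ι i) =>
      (if b = a then 1 else 0) + if a ∈ T i ∧ b = σ i a then 1 else 0) (fun g => by
      obtain ⟨g0, hg0⟩ : ∃ g0 : {g : ∀ i, ι i // ∀ i, g i ∉ T i},
          ∀ i, g0.1 i = if g i ∈ T i then σ i (g i) else g i :=
        ⟨⟨fun i => if g i ∈ T i then σ i (g i) else g i, fun i => by
          beta_reduce
          split_ifs with h
          · exact h2 i _ h
          · exact h⟩, fun _ => rfl⟩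
      obtain ⟨ε, rfl⟩ : ∃ ε, g = el g0 ε := by
        refine ⟨fun j => if g j ∈ T j then 1 else 0, ?_⟩
        funext i
        rw [hel]
        by_cases hi : g i ∈ T i
        · have h3 : g0.1 i = σ i (g i) := by rw [hg0, if_pos hi]
          have h4 : g0.1 i ∈ σ i '' T i := ⟨_, hi, h3.symm⟩
          rw [dif_pos h4, if_pos hi, if_neg one_ne_zero]
          exact h1 i hi (hρ i _ h4).1 (by rw [(hρ i _ h4).2, h3])
        · have h3 : g0.1 i = g i := by rw [hg0, if_neg hi]
          simp [hi, h3]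
      refine ⟨g0, ε, fun u => ?_⟩
      unfold tens
      refine (Fintype.sum_of_injective (el g0) (hinj1 g0) _ _ (fun h hh => ?_) fun δ => ?_).symm
      · by_contra hne
        apply hh
        have h3 := Finset.prod_ne_zero_iff.1 (left_ne_zero_of_mul hne)
        refine ⟨fun j => if h j = g0.1 j then 0 else 1, ?_⟩
        funext i
        have h4 := h3 i (Finset.mem_univ _)
        have h5 : h i = el g0 ε i ∨ h i = g0.1 i := by
          by_contra h6
          push Not at h6
          apply h4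
          beta_reduce
          rw [if_neg h6.1, if_neg, add_zero]
          rintro ⟨h7, h8⟩
          have := hback g0 ε i
          rw [if_pos h7, ← h8] at this
          exact h6.2 this
        rw [hel] at h5 ⊢
        by_cases hi : g0.1 i ∈ σ i '' T i
        · rw [dif_pos hi] at h5 ⊢
          by_cases h6 : h i = g0.1 i
          · simp [h6]
          · rw [if_neg h6, if_neg one_ne_zero]
            rcases h5 with h5 | h5
            · split_ifs at h5
              · exact absurd h5 h6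
              · exact h5.symm
            · exact absurd h5 h6
        · rw [dif_neg hi] at h5 ⊢
          rcases h5 with h5 | h5 <;> exact h5.symm
      · congr 1
        refine Fintype.prod_of_injective Subtype.val Subtype.val_injective _ _
          (fun i hi => ?_) fun ⟨i, hi⟩ => ?_
        · have h3 : g0.1 i ∉ σ i '' T i := fun h => hi ⟨⟨i, h⟩, rfl⟩
          simp only [hel, dif_neg h3, g0.2 i]
          simp
        · have h3 := hρ i _ hi
          have h4 : ρ i (g0.1 i) ≠ g0.1 i := fun h => g0.2 i (h ▸ h3.1)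
          simp only [hel, dif_pos hi, sh]
          rcases zmod2_cases (ε ⟨i, hi⟩) with h5 | h5 <;>
            rcases zmod2_cases (δ ⟨i, hi⟩) with h6 | h6 <;>
            simp [h5, h6, g0.2 i, h3.1, h3.2, h4, h4.symm])
  refine hc.le ?_
  rw [← Finset.mul_sum]
  refine mul_le_mul_of_nonneg_left ?_ ht0
  have h3 := Fintype.card_le_of_injective _ hinj
  rw [Fintype.card_sigma] at h3
  simp only [Fintype.card_fun, ZMod.card] at h3
  exact_mod_cast h3

lemma IsG.matrix {κ : Type} [Fintype κ] [DecidableEq κ] {f : (κ → ℂ) → κ → ℂ} (h : IsG f) :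
    ∃ (c : κ → ℂ) (π : κ → κ), ∀ x a,
      f x a = ∑ b, (if b = π a then c a else 0) * x b := by
  obtain ⟨c, π, h⟩ := h
  exact ⟨c, π, fun x a => by simp [h]⟩

open Classical in
lemma IsS.matrix {κ : Type} [Fintype κ] {f : (κ → ℂ) → κ → ℂ} (h : IsS f) :
    ∃ (T : Set κ) (σ : κ → κ), Set.InjOn σ T ∧ (∀ a ∈ T, σ a ∉ T) ∧ ∀ x a,
      f x a = ∑ b, ((if b = a then 1 else 0) + if a ∈ T ∧ b = σ a then 1 else 0) * x b := by
  obtain ⟨T, σ, h1, h2, h⟩ := h
  refine ⟨T, σ, h1, h2, fun x a => ?_⟩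
  rw [h]
  by_cases ha : a ∈ T <;> simp [ha, add_mul, Finset.sum_add_distrib]

lemma mat_comp {κ : Type} [Fintype κ] (A : κ → ℂ) (B : κ → κ → ℂ) (x : κ → ℂ) :
    ∑ b, A b * ∑ c, B b c * x c = ∑ c, (∑ b, A b * B b c) * x c := by
  simp only [Finset.mul_sum, Finset.sum_mul, mul_assoc]
  exact Finset.sum_comm

open Classical in
lemma dep_tens (t : ℝ) (ht : ∀ p : I → Prop,
      Cost (t * 2 ^ Fintype.card {i // p i}) (tens (fun (_ : {i // p i}) => sh))) (D : ℕ)
    (f : ∀ i, (ι i → ℂ) → ι i → ℂ) (hf : ∀ i, Dep D (f i)) :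
    ∃ A : ∀ i, ι i → ι i → ℂ, (∀ i x a, f i x a = ∑ b, A i a b * x b) ∧
      Cost ((D * (t + 1) + 1) * Fintype.card (∀ i, ι i)) (tens A) := by
  induction D generalizing f with
  | zero =>
    have : ∀ i, IsG (f i) := fun i => by
      have := hf i
      generalize f i = g at this
      cases this with
      | zero _ h => exact h
    choose c π h using fun i => (this i).matrix
    exact ⟨_, h, (cost_tens_gather c π).le (le_of_eq (by simp))⟩
  | succ D ih =>
    have : ∀ i, ∃ f' s g : (ι i → ℂ) → ι i → ℂ, Dep D f' ∧ IsS s ∧ IsG g ∧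
        f i = fun x => g (s (f' x)) := by
      intro i
      have := hf i
      generalize f i = g at this
      cases this with
      | succ _ f' s g h1 h2 h3 => exact ⟨f', s, g, h1, h2, h3, rfl⟩
    choose f' s g h1 h2 h3 h4 using this
    obtain ⟨A, hA, hc⟩ := ih f' h1
    choose c π hg using fun i => (h3 i).matrix
    choose T σ k1 k2 hs using fun i => (h2 i).matrix
    refine ⟨fun i a d => ∑ b, (if b = π i a then c i a else 0) * ∑ e,
      ((if e = b then 1 else 0) + if b ∈ T i ∧ e = σ i b then 1 else 0) * A i e d,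
      fun i x a => ?_, ?_⟩
    · simp only [h4, hg, hs, hA, mat_comp]
    · refine (((hc.comp (cost_tens_shear t ht T σ k1 k2)).comp (cost_tens_gather c π)).le
        (le_of_eq (by push_cast; ring))).congr fun u g => ?_
      rw [tens_mul]
      simp only [← funext (tens_mul _ _ _)]

end

theorem mdft_cost : ∃ C : ℝ, ∀ (I : Type) [Fintype I] [DecidableEq I] (n : I → ℕ)
    [∀ i, NeZero (n i)] (D : ℕ), (∀ i, Dep D (dft (n i))) →
      Cost (C * (D + 1) * ((Fintype.card I : ℝ) + 1) ^ savingExponent * ∏ i, (n i : ℝ))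
        (mdft n) := by
  classical
  obtain ⟨C, hC0, hC⟩ := cost_Etr
  obtain ⟨hθ0, -, -⟩ := theta_facts
  refine ⟨3 * C + 5, fun I _ _ n _ D hD => ?_⟩
  obtain ⟨r, hr⟩ : ∃ r, r = ((Fintype.card I : ℝ) + 1) ^ savingExponent := ⟨_, rfl⟩
  have hr1 : 1 ≤ r := hr ▸ Real.one_le_rpow (by linarith [Nat.cast_nonneg (α := ℝ) (Fintype.card I)])
    hθ0.le
  obtain ⟨A, hA, hc⟩ := dep_tens (I := I) (ι := fun i => ZMod (n i)) (3 * C * r + 4)
    (fun p => (cost_zeta _ (hC _)).le (by
      have h1 : ((Fintype.card {i // p i} : ℝ) + 1) ^ savingExponent ≤ r := by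
        rw [hr]
        refine Real.rpow_le_rpow (by positivity) ?_ hθ0.le
        have := Fintype.card_subtype_le p
        exact_mod_cast Nat.succ_le_succ this
      have h2 : (0 : ℝ) ≤ 2 ^ Fintype.card {i // p i} := by positivity
      nlinarith [mul_le_mul_of_nonneg_left h1 (mul_nonneg hC0 h2)])) D _ hD
  have hA' : ∀ i a b, A i a b = ZMod.stdAddChar (a * b) := fun i a b => by
    have := hA i (Pi.single b 1) a
    simpa [dft, Pi.single_apply] using this.symm
  refine (hc.le ?_).congr fun u g => by simp only [mdft, tens, hA']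
  rw [← hr, Fintype.card_pi]
  simp only [ZMod.card]
  push_cast
  refine mul_le_mul_of_nonneg_right ?_ (by positivity)
  have hD0 : (0 : ℝ) ≤ D := by positivity
  nlinarith [mul_nonneg hD0 (sub_nonneg.2 hr1), mul_nonneg hC0 (zero_le_one.trans hr1)]

end Crest.Agent.R324
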