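import Mathlib
import Crest.Agent.R324.Cost
import Crest.Agent.R324.Dep
import Crest.Agent.R324.InPlace

set_option autoImplicit false
set_option linter.unusedSectionVars false

namespace Crest.Agent.R324

open Crest.FourierCircuit Finset Complex

section Blue

variable {I : Type} [Fintype I] [DecidableEq I] (m : I → ℕ) [∀ i, NeZero (m i)]

/-- characters of the integers -/
noncomputable def chiZ (h : ∀ i, ZMod (m i)) (z : ℤ) : ℂ :=
  ∏ i, ZMod.stdAddChar (h i * (z : ZMod (m i)))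

theorem chiZ_add (h : ∀ i, ZMod (m i)) (z w : ℤ) : chiZ m h (z + w) = chiZ m h z * chiZ m h w := by
  simp only [chiZ, ← Finset.prod_mul_distrib, Int.cast_add, mul_add, AddChar.map_add_eq_mul]

theorem eq_zero_of_dvd (hm : Pairwise (Function.onFun Nat.Coprime m)) {z : ℤ}
    (hz : |z| < (∏ i, m i : ℕ)) (h : ∀ i, (z : ZMod (m i)) = 0) : z = 0 := by
  have : (∏ i, (m i : ℤ)) ∣ z :=
    Fintype.prod_dvd_of_coprime (fun i j hij => Nat.isCoprime_iff_coprime.2 (hm hij))
      (fun i => (ZMod.intCast_zmod_eq_zero_iff_dvd _ _).1 (h i))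
  refine Int.eq_zero_of_abs_lt_dvd this ?_
  exact_mod_cast hz

theorem sum_chiZ (hm : Pairwise (Function.onFun Nat.Coprime m)) {z : ℤ}
    (hz : |z| < (∏ i, m i : ℕ)) :
    ∑ h, chiZ m h z = if z = 0 then ((∏ i, m i : ℕ) : ℂ) else 0 := by
  simp only [chiZ]
  rw [← Fintype.piFinset_univ, ← Finset.prod_univ_sum (fun _ => univ)
    (fun i (a : ZMod (m i)) => ZMod.stdAddChar (a * (z : ZMod (m i))))]
  simp only [sum_psi]
  split_ifs with h0
  · subst h0; simp
  · by_contra hcon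
    apply h0
    refine eq_zero_of_dvd m hm hz (fun i => ?_)
    by_contra hi
    exact hcon (Finset.prod_eq_zero (mem_univ i) (if_neg hi))

theorem bluestein (hm : Pairwise (Function.onFun Nat.Coprime m)) {n : ℕ} (hn : 0 < n)
    (hN : 2 * n ≤ ∏ i, m i) {s : ℝ} (hs : Cost s (mdft m)) :
    Cost (2 * s + 3 * (∏ i, m i : ℕ)) (fun x => (dftMatrix n).mulVec x) := by
  set N := ∏ i, m i with hNdef
  have hN0 : (N : ℂ) ≠ 0 := by exact_mod_cast (by omega : N ≠ 0)
  have hn0 : (n : ℂ) ≠ 0 := by exact_mod_cast hn.ne'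
  let r : Fin n → (∀ i, ZMod (m i)) := fun b i => (((b : ℕ) : ℤ) : ZMod (m i))
  have hr : Function.Injective r := by
    intro a b hab
    have : ((a : ℕ) : ℤ) - (b : ℕ) = 0 := by
      refine eq_zero_of_dvd m hm ?_ (fun i => ?_)
      · have := a.2; have := b.2
        rw [abs_lt]; constructor <;> omega
      · have := congrFun hab i
        simp only [r] at this
        rw [Int.cast_sub, this, sub_self]
    exact Fin.ext (by omega)
  let d : Fin n → ℂ := fun b => exp (Real.pi * Complex.I * ((b : ℕ) : ℂ) ^ 2 / n)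
  let c : ℤ → ℂ := fun t => exp (-(Real.pi * Complex.I * (t : ℂ) ^ 2 / n))
  let D : (∀ i, ZMod (m i)) → ℂ := fun h =>
    (N : ℂ)⁻¹ * ∑ t ∈ Finset.Ioo (-(n : ℤ)) n, c t * chiZ m h t
  have hcard : (Fintype.card (∀ i, ZMod (m i)) : ℝ) = N := by
    rw [Fintype.card_pi]; simp [ZMod.card, hNdef]
  have h1 := (((((Cost.gather (Function.extend r d 0)
    (Function.extend r id (fun _ => (⟨0, hn⟩ : Fin n)))).comp hs).comp
    (Cost.gather D (fun h => h))).comp hs).comp
    (Cost.gather d (fun j (i : I) => ((-((j : ℕ) : ℤ) : ℤ) : ZMod (m i)))))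
  refine (h1.le ?_).congr (fun x j => ?_)
  · rw [hcard, Fintype.card_fin]
    have : (n : ℝ) ≤ N := by exact_mod_cast (by omega : n ≤ N)
    linarith
  · have e1 : (fun k => Function.extend r d 0 k * x (Function.extend r id
        (fun _ => (⟨0, hn⟩ : Fin n)) k)) = Function.extend r (fun b => d b * x b) 0 := by
      funext k
      by_cases hk : ∃ b, r b = k
      · obtain ⟨b, rfl⟩ := hk
        simp [hr.extend_apply]
      · simp [Function.extend_apply' _ _ _ hk]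
    have e2 : ∀ h, mdft m (Function.extend r (fun b => d b * x b) 0) h
        = ∑ b : Fin n, chiZ m h ((b : ℕ) : ℤ) * (d b * x b) := fun h =>
      sum_mul_extend hr _ _
    have e3 : ∀ b : Fin n, ∑ h, chiZ m h (-((j : ℕ) : ℤ)) * (D h * chiZ m h ((b : ℕ) : ℤ))
        = c (((j : ℕ) : ℤ) - (b : ℕ)) := by
      intro b
      have hj := j.2
      have hb := b.2
      have : ∀ h, chiZ m h (-((j : ℕ) : ℤ)) * (D h * chiZ m h ((b : ℕ) : ℤ))
          = ∑ t ∈ Finset.Ioo (-(n : ℤ)) n,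
            (N : ℂ)⁻¹ * c t * chiZ m h (t - (((j : ℕ) : ℤ) - (b : ℕ))) := by
        intro h
        simp only [D, Finset.mul_sum, Finset.sum_mul]
        refine Finset.sum_congr rfl (fun t _ => ?_)
        rw [show t - (((j : ℕ) : ℤ) - (b : ℕ)) = -((j : ℕ) : ℤ) + (t + (b : ℕ)) by ring,
          chiZ_add, chiZ_add]
        ring
      rw [Finset.sum_congr rfl (fun h _ => this h), Finset.sum_comm,
        Finset.sum_eq_single (((j : ℕ) : ℤ) - (b : ℕ))]
      · rw [← Finset.mul_sum, sum_chiZ m hm (by rw [sub_self, abs_zero]; omega),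
          if_pos (sub_self _)]
        rw [← hNdef]
        field_simp
      · intro t ht hne
        rw [Finset.mem_Ioo] at ht
        rw [← Finset.mul_sum, sum_chiZ m hm (by rw [abs_lt]; constructor <;> omega),
          if_neg (sub_ne_zero.2 hne), mul_zero]
      · intro h
        exact absurd (Finset.mem_Ioo.2 ⟨by omega, by omega⟩) h
    simp only [e1]
    have e4 : mdft m (fun k => D k * mdft m (Function.extend r (fun b => d b * x b) 0) k)
        (fun i => ((-((j : ℕ) : ℤ) : ℤ) : ZMod (m i)))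
        = ∑ b : Fin n, c (((j : ℕ) : ℤ) - (b : ℕ)) * (d b * x b) := by
      simp only [e2]
      rw [mdft]
      simp only [← e3, Finset.mul_sum, Finset.sum_mul]
      rw [Finset.sum_comm]
      refine Finset.sum_congr rfl (fun b _ => Finset.sum_congr rfl (fun h _ => ?_))
      simp only [chiZ, mul_comm (h _)]
      ring
    rw [e4, Finset.mul_sum]
    simp only [Matrix.mulVec, dotProduct, dftMatrix, Matrix.of_apply]
    refine Finset.sum_congr rfl (fun b _ => ?_)
    simp only [← mul_assoc, c, d, ← Complex.exp_add, ← Complex.exp_nat_mul]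
    congr 2
    push_cast
    field_simp
    ring

end Blue

/-- the primes in `[11, y]` -/
def PP (y : ℕ) : Finset ℕ := (Finset.Icc 11 y).filter Nat.Prime

theorem two_pow_card_le (y : ℕ) : 2 ^ (PP y).card ≤ ∏ p ∈ PP y, p ^ 2 := by
  rw [← Finset.prod_const]
  refine Finset.prod_le_prod' (fun p hp => ?_)
  have := (Finset.mem_Icc.1 (Finset.mem_filter.1 hp).1).1
  nlinarith

theorem two_pow_le_PP (y : ℕ) : 2 ^ y ≤ (y + 1) ^ ((PP y).card + 12) := by
  have h1 := Chebyshev.two_pow_le_mul_lcmUpto y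
  rw [Nat.lcmUpto_eq_prod_pow_log] at h1
  have h2 : ∏ p ∈ Nat.primesLE y, p ^ Nat.log p y ≤ (y + 1) ^ (Nat.primesLE y).card := by
    rw [← Finset.prod_const]
    refine Finset.prod_le_prod' (fun p _ => ?_)
    rcases Nat.eq_zero_or_pos y with rfl | hy
    · simp
    · exact (Nat.pow_log_le_self p hy.ne').trans (Nat.le_succ y)
  have h3 : (Nat.primesLE y).card ≤ (PP y).card + 11 := by
    have : Nat.primesLE y ⊆ PP y ∪ range 11 := by
      intro p hp
      rw [Nat.mem_primesLE] at hp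
      simp only [PP, Finset.mem_union, Finset.mem_filter, Finset.mem_Icc, Finset.mem_range]
      by_cases h : p < 11
      · exact Or.inr h
      · exact Or.inl ⟨⟨by omega, hp.1⟩, hp.2⟩
    exact (Finset.card_le_card this).trans ((Finset.card_union_le _ _).trans (by simp))
  calc 2 ^ y ≤ (y + 1) * (y + 1) ^ ((PP y).card + 11) :=
        h1.trans (Nat.mul_le_mul_left _ (h2.trans (Nat.pow_le_pow_right (Nat.succ_pos y) h3)))
    _ = _ := by ring

theorem succ_sq_le (t : ℕ) : (t + 1) ^ 2 ≤ 4 * 2 ^ t := by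
  induction t with
  | zero => simp
  | succ t ih =>
    have : t < 2 ^ t := Nat.lt_two_pow_self
    rw [pow_succ 2 t]
    rcases Nat.eq_zero_or_pos t with rfl | ht
    · simp
    · nlinarith

theorem exists_params (n : ℕ) (hn : 0 < n) : ∃ y e t : ℕ, 2 * n ≤ 2 ^ e * ∏ p ∈ PP y, p ^ 2 ∧
    2 ^ e * ∏ p ∈ PP y, p ^ 2 ≤ 4 * n ∧ (PP y).card ≤ Nat.log 2 n ∧ e ≤ 2 * t + 4 ∧
    Nat.log 2 y ≤ t ∧ 2 ^ t ≤ 4 * (Nat.log 2 n + 13) ^ 2 := by
  classical
  have hex : ∃ y, n < ∏ p ∈ PP y, p ^ 2 := by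
    obtain ⟨p, hp, hpp⟩ := Nat.exists_infinite_primes (n + 11)
    refine ⟨p, lt_of_lt_of_le (by nlinarith) (Finset.single_le_prod' (f := fun p => p ^ 2)
      (fun q hq => ?_) (show p ∈ PP p from
        Finset.mem_filter.2 ⟨Finset.mem_Icc.2 ⟨by omega, le_rfl⟩, hpp⟩))⟩
    exact Nat.one_le_pow _ _ (Finset.mem_filter.1 hq).2.pos
  have h0 : Nat.find hex ≠ 0 := by
    intro h
    have := Nat.find_spec hex
    rw [h] at this
    simp [PP] at this
    omega
  obtain ⟨y, hy⟩ := Nat.exists_eq_succ_of_ne_zero h0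
  have h1 : n < ∏ p ∈ PP (y + 1), p ^ 2 := by
    have := Nat.find_spec hex
    rwa [hy] at this
  have h2 : ∏ p ∈ PP y, p ^ 2 ≤ n := not_lt.1 (Nat.find_min hex (by omega))
  set f := ∏ p ∈ PP y, p ^ 2 with hf
  have hfpos : 0 < f := lt_of_lt_of_le (by positivity) (two_pow_card_le y)
  have h3 : ∏ p ∈ PP (y + 1), p ^ 2 ≤ f * (y + 1) ^ 2 := by
    have hs : PP (y + 1) ⊆ insert (y + 1) (PP y) := by
      intro p hp
      simp only [PP, Finset.mem_insert, Finset.mem_filter, Finset.mem_Icc] at hp ⊢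
      by_cases h : p = y + 1
      · exact Or.inl h
      · exact Or.inr ⟨⟨hp.1.1, by omega⟩, hp.2⟩
    have hn' : y + 1 ∉ PP y := by simp [PP]
    rw [mul_comm, hf, ← Finset.prod_insert (f := fun p => p ^ 2) hn']
    refine Finset.prod_le_prod_of_subset_of_one_le' hs (fun p hp _ => ?_)
    rcases Finset.mem_insert.1 hp with rfl | hp
    · exact Nat.one_le_pow _ _ (Nat.succ_pos _)
    · exact Nat.one_le_pow _ _ (Finset.mem_filter.1 hp).2.pos
  have hex2 : ∃ e, 2 * n ≤ 2 ^ e * f :=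
    ⟨2 * n, by have : 2 * n < 2 ^ (2 * n) := Nat.lt_two_pow_self; nlinarith⟩
  have h4 : Nat.find hex2 ≠ 0 := by
    intro h
    have := Nat.find_spec hex2
    rw [h] at this
    omega
  obtain ⟨e, he⟩ := Nat.exists_eq_succ_of_ne_zero h4
  have h5 : 2 * n ≤ 2 ^ (e + 1) * f := by
    have := Nat.find_spec hex2
    rwa [he] at this
  have h6 : 2 ^ e * f < 2 * n := not_le.1 (Nat.find_min hex2 (by omega))
  have h7 : (PP y).card ≤ Nat.log 2 n :=
    Nat.le_log_of_pow_le one_lt_two ((two_pow_card_le y).trans h2)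
  set t := Nat.log 2 (y + 1) with ht
  have l1 : 2 ^ t ≤ y + 1 := Nat.pow_log_le_self 2 (by omega)
  have l2 : y + 1 < 2 ^ (t + 1) := Nat.lt_pow_succ_log_self one_lt_two _
  refine ⟨y, e + 1, t, h5, by rw [pow_succ]; nlinarith, h7, ?_,
    Nat.log_mono_right (Nat.le_succ y), ?_⟩
  · have a1 : 2 ^ e * f < 2 * (y + 1) ^ 2 * f := by nlinarith
    have a2 : 2 ^ e < 2 * (y + 1) ^ 2 := Nat.lt_of_mul_lt_mul_right a1
    have a3 : 2 * (y + 1) ^ 2 ≤ 2 ^ (2 * t + 3) := by
      have : (y + 1) ^ 2 ≤ (2 ^ (t + 1)) ^ 2 := Nat.pow_le_pow_left l2.le 2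
      calc 2 * (y + 1) ^ 2 ≤ 2 * (2 ^ (t + 1)) ^ 2 := Nat.mul_le_mul_left _ this
        _ = _ := by ring
    have := (Nat.pow_lt_pow_iff_right one_lt_two).1 (a2.trans_le a3)
    omega
  · set L := Nat.log 2 n
    have a1 : 2 ^ y ≤ 2 ^ ((t + 1) * (L + 12)) := by
      rw [pow_mul]
      exact (two_pow_le_PP y).trans ((Nat.pow_le_pow_right (Nat.succ_pos y)
        (by omega)).trans (Nat.pow_le_pow_left l2.le _))
    have a2 : y ≤ (t + 1) * (L + 12) := (Nat.pow_le_pow_iff_right one_lt_two).1 a1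
    have a3 : 2 ^ t ≤ (t + 1) * (L + 13) := by nlinarith
    have a4 := succ_sq_le t
    have a5 : 2 ^ t * 2 ^ t ≤ 4 * (L + 13) ^ 2 * 2 ^ t := by
      calc 2 ^ t * 2 ^ t ≤ ((t + 1) * (L + 13)) * ((t + 1) * (L + 13)) := Nat.mul_le_mul a3 a3
        _ = (t + 1) ^ 2 * (L + 13) ^ 2 := by ring
        _ ≤ 4 * 2 ^ t * (L + 13) ^ 2 := Nat.mul_le_mul_right _ a4
        _ = _ := by ring
    exact Nat.le_of_mul_le_mul_right a5 (by positivity)

/-- from fast multi-dimensional transforms to the DFT of every order -/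
theorem dft_of_mdft (θ : ℝ) (hθ0 : 0 ≤ θ) (hθ1 : θ ≤ 1)
    (h2 : ∀ e : ℕ, Dep (2 * e) (dft (2 ^ e)))
    (hsq : ∃ c : ℕ, ∀ (p : ℕ) [NeZero p], Odd p → 11 ≤ p → Dep (c * Nat.log 2 p) (dft (p ^ 2)))
    (hT : ∃ C : ℝ, ∀ (I : Type) [Fintype I] [DecidableEq I] (n : I → ℕ) [∀ i, NeZero (n i)]
      (D : ℕ), (∀ i, Dep D (dft (n i))) →
      Cost (C * (D + 1) * ((Fintype.card I : ℝ) + 1) ^ θ * ∏ i, (n i : ℝ)) (mdft n)) :
    ∃ C : ℝ, ∃ N₀ : ℕ, ∀ n ≥ N₀,
      Cost (C * n * Real.log n ^ θ * Real.log (Real.log n) ^ (4 - θ))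
        (fun x => (dftMatrix n).mulVec x) := by
  classical
  obtain ⟨c, hc⟩ := hsq
  obtain ⟨C, hC⟩ := hT
  refine ⟨24 * |C| * (14 * (c + 4) + 1) + 12, ⌈Real.exp 13⌉₊, fun n hn => ?_⟩
  have hn' : Real.exp 13 ≤ n := (Nat.le_ceil _).trans (by exact_mod_cast hn)
  have hnpos : (0 : ℝ) < n := (Real.exp_pos _).trans_le hn'
  have hl : 13 ≤ Real.log n := (Real.le_log_iff_exp_le hnpos).2 hn'
  have hll : 1 ≤ Real.log (Real.log n) := by
    rw [Real.le_log_iff_exp_le (by linarith)]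
    have := Real.exp_one_lt_d9
    linarith
  obtain ⟨y, e, t, p1, p2, p3, p4, p5, p6⟩ := exists_params n (by exact_mod_cast hnpos)
  let m : Option (PP y) → ℕ := fun o => o.elim (2 ^ e) (fun p => (p : ℕ) ^ 2)
  have hP : ∀ p : PP y, (p : ℕ).Prime ∧ 11 ≤ (p : ℕ) ∧ (p : ℕ) ≤ y := fun p => by
    have := Finset.mem_filter.1 p.2
    exact ⟨this.2, Finset.mem_Icc.1 this.1⟩
  have : ∀ i, NeZero (m i) := by
    rintro (_ | p)
    · exact ⟨pow_ne_zero _ two_ne_zero⟩
    · exact ⟨pow_ne_zero _ (hP p).1.ne_zero⟩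
  have hprod : ∏ i, m i = 2 ^ e * ∏ p ∈ PP y, p ^ 2 := by
    rw [Fintype.prod_option]
    congr 1
    exact Finset.prod_coe_sort (PP y) (fun p => p ^ 2)
  have hcop : Pairwise (Function.onFun Nat.Coprime m) := by
    have k1 : ∀ p : PP y, Nat.Coprime (2 ^ e) ((p : ℕ) ^ 2) := fun p =>
      Nat.Coprime.pow _ _ ((Nat.coprime_primes Nat.prime_two (hP p).1).2
        (by have := (hP p).2.1; omega))
    rintro (_ | p) (_ | q) hne
    · exact absurd rfl hne
    · exact k1 q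
    · exact (k1 p).symm
    · exact Nat.Coprime.pow _ _ ((Nat.coprime_primes (hP p).1 (hP q).1).2
        (fun h => hne (congrArg some (Subtype.ext h))))
  have hdep : ∀ i, Dep ((c + 4) * (t + 2)) (dft (m i)) := by
    rintro (_ | p)
    · exact (h2 e).mono (by nlinarith)
    · have : NeZero (p : ℕ) := ⟨(hP p).1.ne_zero⟩
      refine (hc p ((hP p).1.odd_of_ne_two (by have := (hP p).2.1; omega)) (hP p).2.1).mono ?_
      have := (Nat.log_mono_right (b := 2) (hP p).2.2).trans p5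
      nlinarith
  refine (bluestein m hcop (by exact_mod_cast hnpos) (hprod ▸ p1) (hC _ m _ hdep)).le ?_
  rw [← Nat.cast_prod, hprod, Fintype.card_option, Fintype.card_coe]
  set N : ℕ := 2 ^ e * ∏ p ∈ PP y, p ^ 2
  set l := Real.log n
  set ll := Real.log l
  have hN : (N : ℝ) ≤ 4 * n := by exact_mod_cast p2
  have hlog2 : (1 : ℝ) / 2 ≤ Real.log 2 := by have := Real.log_two_gt_d9; linarith
  have hL : (Nat.log 2 n : ℝ) ≤ 2 * l := by
    have a1 : ((2 ^ Nat.log 2 n : ℕ) : ℝ) ≤ n := by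
      exact_mod_cast Nat.pow_log_le_self 2 (by exact_mod_cast hnpos.ne')
    have a2 := Real.log_le_log (by positivity) a1
    rw [Nat.cast_pow, Real.log_pow, Nat.cast_ofNat] at a2
    nlinarith [Nat.cast_nonneg (α := ℝ) (Nat.log 2 n)]
  have ht : (t : ℝ) ≤ 12 * ll := by
    have a1 : (2 : ℝ) ^ t ≤ 4 * ((Nat.log 2 n : ℝ) + 13) ^ 2 := by exact_mod_cast p6
    have a2 : (2 : ℝ) ^ t ≤ l ^ 6 := by
      refine a1.trans ?_
      have b1 : ((Nat.log 2 n : ℝ) + 13) ^ 2 ≤ (3 * l) ^ 2 :=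
        pow_le_pow_left₀ (by positivity) (by linarith) 2
      have b2 : (13 : ℝ) ^ 4 ≤ l ^ 4 := pow_le_pow_left₀ (by norm_num) hl 4
      have b3 : 0 ≤ l ^ 2 := by positivity
      nlinarith
    have a3 := Real.log_le_log (by positivity) a2
    rw [Real.log_pow, Real.log_pow] at a3
    push_cast at a3
    nlinarith [Nat.cast_nonneg (α := ℝ) t]
  have hD : (((c + 4) * (t + 2) : ℕ) : ℝ) + 1 ≤ (14 * (c + 4) + 1) * ll := by
    push_cast
    have : (0 : ℝ) ≤ c := Nat.cast_nonneg c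
    nlinarith
  have hI : ((((PP y).card + 1 : ℕ) : ℝ) + 1) ^ θ ≤ 3 * l ^ θ := by
    have a1 : (((PP y).card + 1 : ℕ) : ℝ) + 1 ≤ 3 * l := by
      have : ((PP y).card : ℝ) ≤ Nat.log 2 n := by exact_mod_cast p3
      push_cast; linarith
    refine (Real.rpow_le_rpow (by positivity) a1 hθ0).trans ?_
    rw [Real.mul_rpow (by norm_num) (by linarith)]
    refine mul_le_mul_of_nonneg_right ?_ (Real.rpow_nonneg (by linarith) _)
    simpa using Real.rpow_le_rpow_of_exponent_le (by norm_num : (1 : ℝ) ≤ 3) hθ1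
  have hA : 1 ≤ l ^ θ := Real.one_le_rpow (by linarith) hθ0
  have hB : ll ≤ ll ^ (4 - θ) := by
    simpa using Real.rpow_le_rpow_of_exponent_le hll (show (1 : ℝ) ≤ 4 - θ by linarith)
  have hB1 : 1 ≤ ll ^ (4 - θ) := hll.trans hB
  have k1 : C * ((((c + 4) * (t + 2) : ℕ) : ℝ) + 1) * ((((PP y).card + 1 : ℕ) : ℝ) + 1) ^ θ * N
      ≤ |C| * ((14 * (c + 4) + 1) * ll ^ (4 - θ)) * (3 * l ^ θ) * (4 * n) := by
    have : (((c + 4) * (t + 2) : ℕ) : ℝ) + 1 ≤ (14 * (c + 4) + 1) * ll ^ (4 - θ) :=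
      hD.trans (mul_le_mul_of_nonneg_left hB (by positivity))
    gcongr
    exact le_abs_self C
  have k2 : (N : ℝ) ≤ 4 * n * l ^ θ * ll ^ (4 - θ) := by
    calc (N : ℝ) ≤ 4 * n * 1 * 1 := by linarith
      _ ≤ _ := by gcongr
  nlinarith

end Crest.Agent.R324
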